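import Vale.Agent.P251.M.KBasis
import Vale.Agent.P251.S.ModTens

/-!
# P221 (K): base change from the right

For a monoid `R`, an `R`-module `N` (action `R ⊗ N ⟶ N`) and `g : X ⟶ Y ⊗ R`:
`rb L g : X ⊗ N ⟶ Y ⊗ N`.
-/

open CategoryTheory MonoidalCategory Limits MonObj

universe v u

set_option linter.unusedSectionVars false

namespace Vale.Agent.P221.H658

open Vale.Agent.P251.S Vale.Agent.P251.M

section rb

variable {T : Type u} [Category.{v} T] [MonoidalCategory T] {R : T} [MonObj R] {N : T}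

/-- `X ⊗ N ⟶ Y ⊗ R ⊗ N ⟶ Y ⊗ N` -/
def rb (L : ModStr R N) {X Y : T} (g : X ⟶ Y ⊗ R) : X ⊗ N ⟶ Y ⊗ N :=
  g ▷ N ≫ (α_ Y R N).hom ≫ Y ◁ L.act

/-- `X ⟶ X ⊗ R` -/
def ru (R : T) [MonObj R] (X : T) : X ⟶ X ⊗ R := (ρ_ X).inv ≫ X ◁ η[R]

theorem rb_ru (L : ModStr R N) (X : T) : rb L (ru R X) = 𝟙 _ := by
  unfold rb ru
  rw [comp_whiskerRight, Category.assoc, associator_naturality_middle_assoc,
    ← MonoidalCategory.whiskerLeft_comp, L.one_act]
  simp

@[reassoc]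
theorem ru_naturality {X Y : T} (f : X ⟶ Y) : f ≫ ru R Y = ru R X ≫ f ▷ R := by
  unfold ru
  rw [Category.assoc, whisker_exchange, rightUnitor_inv_naturality_assoc]

theorem ru_rb {X Y : T} (g : X ⟶ Y ⊗ R) : ru R X ≫ rb (ModStr.self R) g = g := by
  unfold rb ModStr.self
  dsimp only
  rw [← ru_naturality_assoc, ru]
  have h1 : (Y ⊗ R) ◁ η[R] ≫ (α_ Y R R).hom = (α_ Y R (𝟙_ T)).hom ≫ Y ◁ (R ◁ η[R]) :=
    associator_naturality_right _ _ _
  rw [Category.assoc, reassoc_of% h1, ← MonoidalCategory.whiskerLeft_comp, MonObj.mul_one]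
  simp

theorem rb_rb (L : ModStr R N) {X Y Z : T} (f : X ⟶ Y ⊗ R) (g : Y ⟶ Z ⊗ R) :
    rb L f ≫ rb L g = rb L (f ≫ rb (ModStr.self R) g) := by
  unfold rb ModStr.self
  dsimp only
  simp only [comp_whiskerRight, Category.assoc]
  rw [whisker_exchange_assoc]
  have h1 : (Z ◁ μ[R]) ▷ N ≫ (α_ Z R N).hom ≫ Z ◁ L.act =
      (α_ Z (R ⊗ R) N).hom ≫ Z ◁ ((α_ R R N).hom ≫ R ◁ L.act ≫ L.act) := by
    rw [associator_naturality_middle_assoc, ← MonoidalCategory.whiskerLeft_comp, L.mul_act]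
  rw [h1]
  simp only [MonoidalCategory.whiskerLeft_comp]
  have h2 : (g ▷ R) ▷ N ≫ (α_ Z R R).hom ▷ N ≫ (α_ Z (R ⊗ R) N).hom ≫ Z ◁ (α_ R R N).hom =
      (α_ Y R N).hom ≫ g ▷ (R ⊗ N) ≫ (α_ Z R (R ⊗ N)).hom := by
    rw [← associator_naturality_left_assoc]
    simp
  rw [reassoc_of% h2]
  simp

theorem comp_rb (L : ModStr R N) {X X' Y : T} (f : X' ⟶ X) (g : X ⟶ Y ⊗ R) :
    rb L (f ≫ g) = f ▷ N ≫ rb L g := by
  unfold rb
  rw [comp_whiskerRight, Category.assoc]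

theorem rb_whiskerRight (L : ModStr R N) {X Y Y' : T} (g : X ⟶ Y ⊗ R) (f : Y ⟶ Y') :
    rb L (g ≫ f ▷ R) = rb L g ≫ f ▷ N := by
  unfold rb
  rw [comp_whiskerRight, Category.assoc, Category.assoc, Category.assoc,
    associator_naturality_left_assoc, whisker_exchange]

/-- the inverse of `rb L g`, if `rb g` is an isomorphism for `N = R`. -/
theorem isIso_rb (L : ModStr R N) {X Y : T} (g : X ⟶ Y ⊗ R)
    (hg : IsIso (rb (ModStr.self R) g)) : IsIso (rb L g) := by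
  let k : Y ⟶ X ⊗ R := ru R Y ≫ inv (rb (ModStr.self R) g)
  have h1 : k ≫ rb (ModStr.self R) g = ru R Y := by
    change (ru R Y ≫ inv (rb (ModStr.self R) g)) ≫ rb (ModStr.self R) g = _
    simp
  have h2 : rb (ModStr.self R) k = inv (rb (ModStr.self R) g) := by
    rw [← cancel_mono (rb (ModStr.self R) g), rb_rb, h1, rb_ru, IsIso.inv_hom_id]
  have h3 : g ≫ rb (ModStr.self R) k = ru R X := by
    rw [h2, IsIso.comp_inv_eq, ru_rb]
  exact ⟨⟨rb L k, by rw [rb_rb, h3, rb_ru], by rw [rb_rb, h1, rb_ru]⟩⟩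

theorem rb_ru_inv {X Y : T} (g : X ⟶ Y ⊗ R) [IsIso (rb (ModStr.self R) g)] :
    rb (ModStr.self R) (ru R Y ≫ inv (rb (ModStr.self R) g)) = inv (rb (ModStr.self R) g) := by
  rw [← cancel_mono (rb (ModStr.self R) g), rb_rb, Category.assoc, IsIso.inv_hom_id,
    Category.comp_id, rb_ru]

theorem comp_rb_inv {X Y : T} (g : X ⟶ Y ⊗ R) [IsIso (rb (ModStr.self R) g)] :
    g ≫ inv (rb (ModStr.self R) g) = ru R X := by
  rw [IsIso.comp_inv_eq, ru_rb]

/-- functoriality in the module -/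
theorem rb_natural {N' : T} {L : ModStr R N} {L' : ModStr R N'} {f : N ⟶ N'}
    (hf : L.IsLinear L' f) {X Y : T} (g : X ⟶ Y ⊗ R) :
    rb L g ≫ Y ◁ f = X ◁ f ≫ rb L' g := by
  unfold rb
  unfold ModStr.IsLinear at hf
  rw [Category.assoc, Category.assoc, ← MonoidalCategory.whiskerLeft_comp, hf,
    whisker_exchange_assoc, MonoidalCategory.whiskerLeft_comp,
    associator_naturality_right_assoc]

end rb

section braid

variable {T : Type u} [Category.{v} T] [MonoidalCategory T] [SymmetricCategory T] {R : T}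
  [MonObj R] [IsCommMonObj R]

/-- comparison with `FM.bind` -/
theorem rb_braid {X : T} (g : X ⟶ R ⊗ R) :
    rb (ModStr.self R) (g ≫ (β_ R R).hom) = (β_ X R).hom ≫ FM.bind g ≫ (β_ R R).hom := by
  unfold rb FM.bind ModStr.self
  dsimp only
  have h0 : (β_ X R).hom ≫ R ◁ g = g ▷ R ≫ (β_ (R ⊗ R) R).hom :=
    (BraidedCategory.braiding_naturality_left g R).symm
  have h1 : μ[R] ▷ R ≫ (β_ R R).hom = (β_ (R ⊗ R) R).hom ≫ R ◁ μ[R] :=
    BraidedCategory.braiding_naturality_left _ _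
  have h2 : (β_ (R ⊗ R) R).hom ≫ (α_ R R R).inv =
      (α_ R R R).hom ≫ R ◁ (β_ R R).hom ≫ (α_ R R R).inv ≫ (β_ R R).hom ▷ R := by
    rw [BraidedCategory.braiding_tensor_left_hom]
    simp
  have h3 : (β_ R R).hom ▷ R ≫ (β_ (R ⊗ R) R).hom = (β_ (R ⊗ R) R).hom ≫ R ◁ (β_ R R).hom :=
    BraidedCategory.braiding_naturality_left _ _
  have h4 : (β_ (R ⊗ R) R).hom ≫ (α_ R R R).inv ≫ (β_ (R ⊗ R) R).hom =
      (β_ R R).hom ▷ R ≫ (α_ R R R).hom ≫ R ◁ (β_ R R).hom := by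
    rw [reassoc_of% h2, h3, BraidedCategory.braiding_tensor_left_hom]
    simp only [Category.assoc, Iso.inv_hom_id_assoc]
    rw [← MonoidalCategory.whiskerLeft_comp_assoc, SymmetricCategory.symmetry]
    simp
  have h5 : R ◁ (β_ R R).hom ≫ R ◁ μ[R] = R ◁ μ[R] := by
    rw [← MonoidalCategory.whiskerLeft_comp, IsCommMonObj.mul_comm]
  simp only [comp_whiskerRight, Category.assoc]
  rw [reassoc_of% h0, h1, reassoc_of% h4, h5]

/-- the coproduct form -/
theorem isIso_rb_desc {T : Type u} [Category.{v} T] [MonoidalCategory T] [SymmetricCategory T]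
    [MonoidalClosed T] [HasCoproducts.{0} T]
    {R : T} [MonObj R] {N : T} (L : ModStr R N) {J : Type} (X : J → T) {Y : T}
    (g : ∀ j, X j ⟶ Y ⊗ R) (h : IsIso (rb L (Sigma.desc g))) :
    IsIso (Sigma.desc fun j => (rb L (g j) : X j ⊗ N ⟶ Y ⊗ N)) := by
  have : (tensorLeft N).IsLeftAdjoint := ⟨_, ⟨ihom.adjunction N⟩⟩
  have : (tensorRight N).IsLeftAdjoint :=
    Functor.isLeftAdjoint_of_iso (BraidedCategory.tensorLeftIsoTensorRight N)
  have e : (Sigma.desc fun j => (rb L (g j) : X j ⊗ N ⟶ Y ⊗ N)) =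
      sigmaComparison (tensorRight N) X ≫ rb L (Sigma.desc g) := by
    apply Sigma.hom_ext
    intro j
    have e1 : Sigma.ι (fun j => X j ⊗ N) j ≫ sigmaComparison (tensorRight N) X =
        Sigma.ι X j ▷ N := ι_comp_sigmaComparison (tensorRight N) X j
    rw [Sigma.ι_desc, reassoc_of% e1, ← comp_rb, Sigma.ι_desc]
  rw [e]
  infer_instance

end braid

end Vale.Agent.P221.H658
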