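import Vale.Agent.P221.H658.B3
import Vale.Agent.P221.H246.B2Hom

/-!
# P221, specs (B1), (B2), (B3) without hypotheses
-/

namespace Vale.Agent.P221.H658

variable (p n : ℕ) [Fact p.Prime]

/-- **(B2)** -/
theorem specB2 : SpecB2 p n := H246.specB2_of (specB1 p n) (specB3 p n)

end Vale.Agent.P221.H658
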