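import Vale.Agent.P221.H903.B1
import Vale.Agent.P221.H924.Scale

/-!
# P221, (B3): the values `yF p P.F m` are homogeneous of weight `m + 1`
-/

namespace Vale.Agent.P221.H658

open MvPolynomial Vale.Agent.P217 Vale.Agent.P251.F
open Vale.Agent.P221.H924 Vale.Agent.P221.H903

variable {p n : ℕ} [hp : Fact p.Prime]

/-- a law over a ring with `p = 0` is homogeneous if its generators are -/
theorem homLaw_of_yF {σ R : Type} [CommRing R] {w : σ → ℕ} (hR : (p : R) = 0)
    (G : Law (MvPolynomial σ R)) (h : ∀ m, (yF p G m).IsWeightedHomogeneous w (m + 1)) :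
    HomLaw w G := by
  unfold HomLaw
  have h0 : ((p : ℕ) : LaurentPolynomial (MvPolynomial σ R)) = 0 := by
    rw [← map_natCast (LaurentPolynomial.C.comp MvPolynomial.C :
      R →+* LaurentPolynomial (MvPolynomial σ R)), hR, map_zero]
  refine law_ext_yF h0 fun m => ?_
  rw [yF_lin_inv_smul, ← map_yF, ← map_yF, sc_eq_of_isWeightedHomogeneous w (h m), mul_comm]
  congr 1
  have h3 := unitT_zpow (MvPolynomial σ R) ((m + 1 : ℕ) : ℤ)
  rw [← h3, zpow_natCast, Units.val_pow_eq_pow_val]

/-- `strictMk b • G` is homogeneous if `G` and the `b_m` (weight `m + 1`) are -/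
theorem homLaw_strictMk_smul {σ R : Type} [CommRing R] {w : σ → ℕ}
    {G : Law (MvPolynomial σ R)} (hG : HomLaw w G) {b : ℕ → MvPolynomial σ R}
    (hb : ∀ m, (b m).IsWeightedHomogeneous w (m + 1)) : HomLaw w (strictMk b • G) := by
  unfold HomLaw at *
  have h1 : InvSeries.map (sc w) (strictMk b) = (InvSeries.lin (unitT (MvPolynomial σ R)))⁻¹ *
      InvSeries.map (LaurentPolynomial.C : _ →+* LaurentPolynomial (MvPolynomial σ R))
        (strictMk b) * InvSeries.lin (unitT (MvPolynomial σ R)) := by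
    apply InvSeries.ext_c
    intro m
    rw [Vale.Agent.P257.H80.c_conj_lin, InvSeries.c_map, InvSeries.c_map]
    rcases m with _ | m
    · rw [c_zero_strictMk, map_one, map_one, pow_zero, one_mul]
    · rw [c_succ_strictMk, sc_eq_of_isWeightedHomogeneous w (hb m), mul_comm]
      congr 1
      have h3 := unitT_zpow (MvPolynomial σ R) ((m + 1 : ℕ) : ℤ)
      rw [← h3, zpow_natCast, Units.val_pow_eq_pow_val]
  rw [InvSeries.map_smul, InvSeries.map_smul, hG, h1, ← mul_smul, ← mul_smul]
  congr 1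
  rw [mul_assoc, mul_inv_cancel, mul_one]

/-- the pullback of a weighted homogeneous polynomial -/
theorem isWH_rename_inl {f : MvPolynomial (Fin n) (ZMod p)} {m : ℕ}
    (h : IsWeightedHomogeneous (wV p n) f ((m : ℤ) + 1)) :
    IsWeightedHomogeneous (wN p n) (rename (Sum.inl : Fin n → Fin n ⊕ ℕ) f : VB p n) (m + 1) := by
  rw [← isWH_iff]
  push_cast
  intro d hd
  obtain ⟨e, rfl, he⟩ := coeff_rename_ne_zero _ _ _ hd
  rw [← h he, Finsupp.weight_apply, Finsupp.weight_apply]
  exact Finsupp.sum_mapDomain_index (h := fun i (c : ℕ) => c • wVB p n i)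
    (fun _ => zero_smul _ _) (fun _ _ _ => add_smul _ _ _)

theorem homLaw_G (P : Form p n) : HomLaw (wN p n) P.G := by
  refine homLaw_of_yF (p := p) (CharP.cast_eq_zero _ _) _ fun m => ?_
  rw [Form.G, ← map_yF, P.yF_law]
  exact isWH_rename_inl (P.hom m)

theorem homLaw_F (P : Form p n) : HomLaw (wN p n) P.F :=
  homLaw_strictMk_smul (homLaw_G P) fun m => isWeightedHomogeneous_X _ _ (Sum.inr m)

variable (p n)

/-- **(B3)** -/
theorem specB3 : SpecB3 p n := fun P m => by
  have h := isWH_iff.2 ((homLaw_F P).yF p m)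
  push_cast at h
  exact h

/-- **(B1)** -/
theorem specB1 : SpecB1 p n := b1 (specB3 p n)

end Vale.Agent.P221.H658
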