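import Vale.Agent.P221.St.Statement
import Vale.Agent.P221.St.LocA

/-!
# P221 (E'): the compact statement layer
-/

open CategoryTheory MonoidalCategory

set_option linter.unusedSectionVars false

noncomputable section

namespace Vale.Agent.P221.H658

open Vale.Agent.P251.St Vale.Agent.P251.St.SHCat Vale.Agent.P257.St

variable {T : SHCat} {S : Susp T} {p n : ℕ}

/-- the two descriptions of the ideal -/
theorem inGen_iff {R : RingSp T} (x : ∀ j : ℕ, Hom (S.obj (Cn (p ^ j - 1))) R.obj) {k : ℤ}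
    (u : Hom (sphere T k) R.obj) : St.InGen n x T.one (comp u (rightInv R.obj)) ↔
      ∃ (N : ℕ) (b : ∀ j : ℕ, Hom (sphere T k) (ten R.obj (S.obj (Cn (p ^ j - 1))))),
        u = ∑ j ∈ Finset.Ioc n N, comp (b j) (StL.mulBy (x j)) := by
  constructor
  · rintro ⟨N, b, h⟩
    refine ⟨N, fun j => b j ≫ (ρ_ _).hom, ?_⟩
    have h1 : u = (u ≫ (ρ_ R.obj).inv) ≫ (ρ_ R.obj).hom := by
      rw [Category.assoc, Iso.inv_hom_id, Category.comp_id]
    have h2 : u ≫ (ρ_ R.obj).inv = ∑ j ∈ Finset.Ioc n N, b j ≫ (St.mulBy (x j) ▷ 𝟙_ T.C) := h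
    rw [h1, h2, Preadditive.sum_comp]
    refine Finset.sum_congr rfl fun j _ => ?_
    rw [Category.assoc, rightUnitor_naturality, ← Category.assoc]
  · rintro ⟨N, b, h⟩
    refine ⟨N, fun j => b j ≫ (ρ_ _).inv, ?_⟩
    change u ≫ (ρ_ R.obj).inv = ∑ j ∈ Finset.Ioc n N, (b j ≫ (ρ_ _).inv) ≫ (St.mulBy (x j) ▷ 𝟙_ T.C)
    have h2 : u = ∑ j ∈ Finset.Ioc n N, b j ≫ St.mulBy (x j) := h
    rw [h2, Preadditive.sum_comp]
    refine Finset.sum_congr rfl fun j _ => ?_
    rw [Category.assoc (b j) (ρ_ _).inv, ← rightUnitor_inv_naturality]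
    exact Category.assoc (b j) (St.mulBy (x j)) _

/-- the two definitions of standard forms -/
theorem isStandardForm_of {B : T.C} (h : StL.IsStandardForm S p n B) :
    St.IsStandardForm S p n B := by
  obtain ⟨P, o, φ, x, C, a, q, c, hP, hx, hq, hc⟩ := h
  exact ⟨P, o, φ, x, C, a, q, c, hP, hx,
    ⟨hq.act, hq.map, hq.surj, fun k u => (hq.ker k u).trans (inGen_iff x u).symm⟩, hc⟩

theorem isStandardForm_of' {B : T.C} (h : St.IsStandardForm S p n B) :
    StL.IsStandardForm S p n B := by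
  obtain ⟨P, o, φ, x, C, a, q, c, hP, hx, hq, hc⟩ := h
  exact ⟨P, o, φ, x, C, a, q, c, hP, hx,
    ⟨hq.act, hq.map, hq.surj, fun k u => (hq.ker k u).trans (inGen_iff x u)⟩, hc⟩

theorem thickL_of {B X : T.C} (h : St.Thick B X) : StL.Thick B X := by
  induction h with
  | base => exact .base rfl
  | zero h => exact .zero h
  | susp k _ ih => exact .susp k ih
  | cof hd _ _ h1 h2 => exact .cof hd h1 h2
  | retract i r hir _ ih => exact .retract i r hir ih

theorem thickL_mono {Q Q' : T.C → Prop} (h : ∀ Y, Q Y → StL.ThickOf Q' Y) {X : T.C}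
    (hX : StL.ThickOf Q X) : StL.ThickOf Q' X := by
  induction hX with
  | base hY => exact h _ hY
  | zero h0 => exact .zero h0
  | susp k _ ih => exact .susp k ih
  | cof hd _ _ ih₁ ih₂ => exact .cof hd ih₁ ih₂
  | retract i r hir _ ih => exact .retract i r hir ih

end Vale.Agent.P221.H658
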