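import Vale.Agent.P221.H658.K5OM
import Vale.Agent.P221.H174.ShiftOM

/-!
# P221 (E'): filtrations of `M(X)` by subgroups stable under the operators

* `OSub c X` : graded subgroups of `π_{2*}(R ⊗ (X ⊗ C))` stable under the operators;
* `sOM A : OM (ZMod p) c.O c.dego`; `sTop`, `sSes`;
* `tr u i` : transport along `u : R ≅ R'` to `𝟙⟦2 i⟧ ⟶ R' ⊗ Z`; `tr_opw`.
-/

open CategoryTheory MonoidalCategory Limits Pretriangulated MonObj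
open Vale.Agent.P251.T Vale.Agent.P251.M Vale.Agent.P251.S
open Vale.Agent.P251.M.EvenSpheres Vale.Agent.P221.H174

universe u

set_option linter.unusedSectionVars false
set_option linter.unusedVariables false

noncomputable section

namespace Vale.Agent.P221.H658

variable {T : Type u} [Category.{0} T] [Preadditive T] [HasZeroObject T]
    [HasShift T ℤ] [∀ n : ℤ, (shiftFunctor T n).Additive] [Pretriangulated T] [IsTriangulated T]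
    [MonoidalCategory T] [SymmetricCategory T] [TensorTriangulated T] [MonoidalClosed T]
    [HasCoproducts.{0} T] [HasProducts.{0} T] [StableCat T] {p : ℕ}

section sub

variable {c : Ctx T p} {X B : T}

/-- graded subgroups of `π_{2*}(R ⊗ (X ⊗ C))` stable under the operators -/
structure OSub (c : Ctx T p) (X : T) where
  /-- the subgroups -/
  A : ∀ i : ℤ, AddSubgroup ((stdEven T).S i ⟶ c.R ⊗ (X ⊗ c.C))
  op : ∀ {i j l : ℤ} (e : (stdEven T).S j ⊗ c.R ⟶ c.R) (h : j + i = l)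
    {w : (stdEven T).S i ⟶ c.R ⊗ (X ⊗ c.C)}, w ∈ A i → opw e h w ∈ A l

/-- the submodules -/
def sSub (A : OSub c X) (i : ℤ) : Submodule (ZMod p) ((c.M X).A i) :=
  AddSubgroup.toZModSubmodule p (A.A i : AddSubgroup ((c.M X).A i))

theorem act_mem_sSub (A : OSub c X) (m : ℕ) {i j : ℤ} (h : i + ((m : ℤ) + 1) = j)
    {w : (stdEven T).S i ⟶ c.R ⊗ (X ⊗ c.C)} (hw : w ∈ A.A i) :
    ((c.M X).act m h w : (stdEven T).S j ⟶ c.R ⊗ (X ⊗ c.C)) ∈ A.A j := by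
  have h1 := A.op (mulop (c.y m)) (by omega : ((m : ℤ) + 1) + i = j) hw
  have h2 := act_eq_opw X m h w
  rw [← h2] at h1
  exact h1

/-- The sub-object of `c.OM X` given by `A`. -/
def sOM (A : OSub c X) : OM (ZMod p) c.O c.dego where
  M :=
    { A := fun i => sSub A i
      act := fun m {i j} h => ((c.M X).act m h).restrict fun w hw => act_mem_sSub A m h hw
      comm := fun m n _ _ _ _ h1 h2 h3 h4 x => Subtype.ext ((c.M X).comm m n h1 h2 h3 h4 x.1) }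
  op o {i j} h :=
    { toFun := fun w => ⟨(c.OM X).op o h w.1, A.op o.2 (Ctx.dego_eq h) w.2⟩
      map_zero' := Subtype.ext (map_zero _)
      map_add' := fun w w' => Subtype.ext (map_add _ _ _) }

/-- the inclusion -/
def sIncl {A A' : OSub c X} (h : ∀ i, A'.A i ≤ A.A i) : OM.Hom (sOM A') (sOM A) where
  f :=
    { f := fun i => Submodule.inclusion fun _ hw => h i hw
      comm := fun m _ i j e x => rfl }
  op_comm o {i j} e x := rfl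

/-- the inclusion in `c.OM X`, if `A` is everything -/
def sTop {A : OSub c X} (h : ∀ i, A.A i = ⊤) : OM.Iso (sOM A) (c.OM X) where
  f :=
    { f :=
        { f := fun i => (sSub A i).subtype
          comm := fun m _ i j e x => rfl }
      op_comm := fun o {i j} e x => rfl }
  bij i := by
    constructor
    · intro x y hxy
      exact Subtype.ext hxy
    · intro w
      refine ⟨⟨w, ?_⟩, rfl⟩
      change w ∈ A.A i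
      rw [h]
      exact AddSubgroup.mem_top _

/-- the quotient maps -/
structure OQuo (A : OSub c X) (B : T) where
  /-- the map -/
  θ : ∀ i : ℤ, A.A i →+ ((stdEven T).S i ⟶ c.R ⊗ (B ⊗ c.C))
  comm : ∀ {i j l : ℤ} (e : (stdEven T).S j ⊗ c.R ⟶ c.R) (h : j + i = l) (w : A.A i),
    θ l ⟨opw e h w.1, A.op e h w.2⟩ = opw e h (θ i w)

/-- the quotient map -/
def sQ {A : OSub c X} (Q : OQuo A B) : OM.Hom (sOM A) (c.OM B) where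
  f :=
    { f := fun i => AddMonoidHom.toZModLinearMap p (Q.θ i : (sSub A i) →+ (c.M B).A i)
      comm := fun m _ {i j} h x => by
        have h1 := Q.comm (mulop (c.y m)) (by omega : ((m : ℤ) + 1) + i = j) x
        have h2 := act_eq_opw (c := c) B m h (Q.θ i x)
        refine Eq.trans ?_ (h1.trans h2.symm)
        change Q.θ j _ = Q.θ j _
        congr 1
        apply Subtype.ext
        exact act_eq_opw X m h x.1 }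
  op_comm o {i j} h x := Q.comm o.2 (Ctx.dego_eq h) x

/-- the short exact sequence -/
def sSes {A A' : OSub c X} (Q : OQuo A B) (hs : ∀ i, Function.Surjective (Q.θ i))
    (hk : ∀ i x, x ∈ A'.A i ↔ ∃ hx : x ∈ A.A i, Q.θ i ⟨x, hx⟩ = 0) :
    OM.Ses (sOM A') (sOM A) (c.OM B) where
  f := sIncl fun i x hx => ((hk i x).1 hx).1
  g := sQ Q
  inj i x y h := Subtype.ext (congrArg (fun z : sSub A i => z.1) h)
  surj i := hs i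
  exact i x := by
    constructor
    · intro h
      exact ⟨⟨x.1, (hk i _).2 ⟨x.2, h⟩⟩, rfl⟩
    · rintro ⟨y, rfl⟩
      exact ((hk i _).1 y.2).2

/-- change of the index set -/
theorem flt_reindex {k : Type} [CommRing k] {O : Type} {deg : O → ℤ} {I J : Type}
    {B : J → OM k O deg} (f : I → J) {M : OM k O deg} {L : List (I × ℤ)}
    (h : OM.Flt (fun l => B (f l)) M L) : OM.Flt B M (L.map fun q => (f q.1, q.2)) := by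
  induction h with
  | nil h => exact .nil h
  | cons S _ ih => exact .cons S ih

end sub

/-- homomorphisms from their graphs -/
theorem exists_hom_of_rel {A B : Type} [AddCommGroup A] [AddCommGroup B] {F G : A → Prop}
    {θ : A → B → Prop} (dom : ∀ y, G y ↔ ∃ z, θ y z) (ker : ∀ y, F y ↔ θ y 0)
    (sub : ∀ y y' z z', θ y z → θ y' z' → θ (y - y') (z - z')) (zero : ∀ z, θ 0 z → z = 0)
    (surj : ∀ z, ∃ y, θ y z) : ∃ (G' : AddSubgroup A) (f : G' →+ B), (∀ y, y ∈ G' ↔ G y) ∧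
      Function.Surjective f ∧ (∀ y, F y ↔ ∃ h : y ∈ G', f ⟨y, h⟩ = 0) ∧
      ∀ (y : G') (z : B), θ y z ↔ f y = z := by
  have h0 : θ 0 0 := by
    obtain ⟨y, hy⟩ := surj 0
    have h := sub y y 0 0 hy hy
    rwa [sub_self, sub_self] at h
  have hneg : ∀ y z, θ y z → θ (-y) (-z) := fun y z h => by
    have h1 := sub 0 y 0 z h0 h
    rwa [zero_sub, zero_sub] at h1
  have hadd : ∀ y y' z z', θ y z → θ y' z' → θ (y + y') (z + z') := fun y y' z z' h h' => by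
    have h1 := sub y (-y') z (-z') h (hneg _ _ h')
    rwa [sub_neg_eq_add, sub_neg_eq_add] at h1
  have huniq : ∀ y z z', θ y z → θ y z' → z = z' := fun y z z' h h' => by
    have h1 := sub y y z z' h h'
    rw [sub_self] at h1
    exact sub_eq_zero.1 (zero _ h1)
  let G' : AddSubgroup A :=
    { carrier := {y | G y}
      zero_mem' := (dom 0).2 ⟨0, h0⟩
      add_mem' := fun {y y'} hy hy' => by
        obtain ⟨z, hz⟩ := (dom y).1 hy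
        obtain ⟨z', hz'⟩ := (dom y').1 hy'
        exact (dom _).2 ⟨z + z', hadd _ _ _ _ hz hz'⟩
      neg_mem' := fun {y} hy => by
        obtain ⟨z, hz⟩ := (dom y).1 hy
        exact (dom _).2 ⟨-z, hneg _ _ hz⟩ }
  choose f hf using fun y : G' => (dom y.1).1 y.2
  have hf' : ∀ (y : G') (z : B), θ y z ↔ f y = z := fun y z =>
    ⟨fun h => huniq _ _ _ (hf y) h, fun h => h ▸ hf y⟩
  refine ⟨G', ⟨⟨f, (hf' 0 0).1 h0⟩, fun y y' => (hf' _ _).1 (hadd _ _ _ _ (hf y) (hf y'))⟩,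
    fun y => Iff.rfl, fun z => ?_, fun y => ?_, hf'⟩
  · obtain ⟨y, hy⟩ := surj z
    exact ⟨⟨y, (dom y).2 ⟨z, hy⟩⟩, (hf' _ _).1 hy⟩
  · rw [ker]
    exact ⟨fun h => ⟨(dom y).2 ⟨0, h⟩, (hf' _ _).1 h⟩, fun ⟨h, h'⟩ => (hf' ⟨y, h⟩ 0).2 h'⟩

section tr

variable {R R' Z : T} (u : R ≅ R')

/-- transport of homotopy classes -/
def tr (i : ℤ) : ((stdEven T).S i ⟶ R ⊗ Z) ≃+ ((𝟙_ T)⟦2 * i⟧ ⟶ R' ⊗ Z) where
  toFun w := (stdSph i).inv ≫ w ≫ (u.hom ▷ Z)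
  invFun y := (stdSph i).hom ≫ y ≫ (u.inv ▷ Z)
  left_inv w := by
    simp only [Category.assoc, Iso.hom_inv_id_assoc]
    rw [← comp_whiskerRight, u.hom_inv_id, id_whiskerRight, Category.comp_id]
  right_inv y := by
    simp only [Category.assoc, Iso.inv_hom_id_assoc]
    rw [← comp_whiskerRight, u.inv_hom_id, id_whiskerRight, Category.comp_id]
  map_add' w w' := by
    rw [Preadditive.add_comp, Preadditive.comp_add]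

theorem tr_apply (i : ℤ) (w : (stdEven T).S i ⟶ R ⊗ Z) :
    tr u i w = (stdSph i).inv ≫ w ≫ (u.hom ▷ Z) := rfl

/-- transport of operations -/
def trE {j : ℤ} (e : (stdEven T).S j ⊗ R ⟶ R) : (𝟙_ T)⟦2 * j⟧ ⊗ R' ⟶ R' :=
  ((stdSph j).inv ⊗ₘ u.inv) ≫ e ≫ u.hom

/-- the comparison of the spheres -/
def trU {j i l : ℤ} (h : j + i = l) : (𝟙_ T)⟦2 * l⟧ ⟶ (𝟙_ T)⟦2 * j⟧ ⊗ (𝟙_ T)⟦2 * i⟧ :=
  (stdSph l).inv ≫ ((stdEven T).mu j i l h).inv ≫ ((stdSph j).hom ⊗ₘ (stdSph i).hom)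

theorem tr_opw {j i l : ℤ} (e : (stdEven T).S j ⊗ R ⟶ R) (h : j + i = l)
    (w : (stdEven T).S i ⟶ R ⊗ Z) :
    tr u l (opw e h w) = trU h ≫ ((𝟙_ T)⟦2 * j⟧ ◁ tr u i w) ≫
      (α_ ((𝟙_ T)⟦2 * j⟧) R' Z).inv ≫ (trE u e ▷ Z) := by
  unfold trU trE opw EvenSpheres.ext
  rw [tr_apply, tr_apply]
  simp only [Category.assoc]
  congr 2
  rw [← id_tensorHom ((𝟙_ T)⟦2 * j⟧), tensorHom_comp_tensorHom_assoc, Category.comp_id,
    Iso.hom_inv_id_assoc, comp_whiskerRight, comp_whiskerRight]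
  have h1 : (stdSph j).hom ⊗ₘ (w ≫ u.hom ▷ Z) =
      (𝟙 ((stdEven T).S j) ⊗ₘ w) ≫ ((stdSph j).hom ⊗ₘ (u.hom ⊗ₘ 𝟙 Z)) := by
    rw [tensorHom_comp_tensorHom, Category.id_comp, tensorHom_id]
  rw [h1, Category.assoc, associator_inv_naturality_assoc, ← tensorHom_id (_ ⊗ₘ _),
    tensorHom_comp_tensorHom_assoc, tensorHom_comp_tensorHom, Category.id_comp,
    Iso.hom_inv_id, Iso.hom_inv_id]
  simp

theorem zero_of_whisker {R R' Z W : T} (u : R ≅ R') (h : ∀ y : W ⟶ R' ⊗ Z, y = 0)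
    (f : W ⟶ R ⊗ Z) : f = 0 := by
  rw [← cancel_mono (u.hom ▷ Z), h (f ≫ (u.hom ▷ Z)), zero_comp]

end tr

section step

variable {c : Ctx T p} {R' X B : T} (u : c.R ≅ R')

/-- the action of the operations -/
def opn {R' Z : T} {j k m : ℤ} (e : (𝟙_ T)⟦j⟧ ⊗ R' ⟶ R')
    (v : (𝟙_ T)⟦m⟧ ⟶ (𝟙_ T)⟦j⟧ ⊗ (𝟙_ T)⟦k⟧) (y : (𝟙_ T)⟦k⟧ ⟶ R' ⊗ Z) : (𝟙_ T)⟦m⟧ ⟶ R' ⊗ Z :=
  v ≫ ((𝟙_ T)⟦j⟧ ◁ y) ≫ (α_ ((𝟙_ T)⟦j⟧) R' Z).inv ≫ (e ▷ Z)

theorem opn_zero {R' Z : T} {j k m : ℤ} (e : (𝟙_ T)⟦j⟧ ⊗ R' ⟶ R')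
    (v : (𝟙_ T)⟦m⟧ ⟶ (𝟙_ T)⟦j⟧ ⊗ (𝟙_ T)⟦k⟧) :
    opn e v (0 : (𝟙_ T)⟦k⟧ ⟶ R' ⊗ Z) = 0 := by
  unfold opn
  rw [MonoidalPreadditive.whiskerLeft_zero, zero_comp, comp_zero]

/-- stability -/
def Stab (G : ∀ k : ℤ, AddSubgroup ((𝟙_ T)⟦k⟧ ⟶ R' ⊗ (X ⊗ c.C))) : Prop :=
  ∀ (j k m : ℤ) (e : (𝟙_ T)⟦j⟧ ⊗ R' ⟶ R') (v : (𝟙_ T)⟦m⟧ ⟶ (𝟙_ T)⟦j⟧ ⊗ (𝟙_ T)⟦k⟧)
    (y : (𝟙_ T)⟦k⟧ ⟶ R' ⊗ (X ⊗ c.C)), y ∈ G k → opn e v y ∈ G m

theorem stab_bot : Stab (c := c) (R' := R') (X := X) fun _ => ⊥ := by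
  intro j k m e v y hy
  rw [AddSubgroup.mem_bot] at hy ⊢
  rw [hy, opn_zero]

/-- the subgroups -/
def osub {G : ∀ k : ℤ, AddSubgroup ((𝟙_ T)⟦k⟧ ⟶ R' ⊗ (X ⊗ c.C))} (hG : Stab G) : OSub c X where
  A i := (G (2 * i)).comap (tr u i).toAddMonoidHom
  op {i j l} e h {w} hw := by
    change tr u l (opw e h w) ∈ G (2 * l)
    rw [tr_opw]
    exact hG _ _ _ (trE u e) (trU h) _ hw

theorem mem_osub {G : ∀ k : ℤ, AddSubgroup ((𝟙_ T)⟦k⟧ ⟶ R' ⊗ (X ⊗ c.C))} {hG : Stab G}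
    {i : ℤ} {w : (stdEven T).S i ⟶ c.R ⊗ (X ⊗ c.C)} :
    w ∈ (osub u hG).A i ↔ tr u i w ∈ G (2 * i) := Iff.rfl

/-- the elements of `G` -/
def osubHom {G : ∀ k : ℤ, AddSubgroup ((𝟙_ T)⟦k⟧ ⟶ R' ⊗ (X ⊗ c.C))} (hG : Stab G) (i : ℤ) :
    (osub u hG).A i →+ G (2 * i) where
  toFun w := ⟨tr u i w.1, w.2⟩
  map_zero' := Subtype.ext (map_zero (tr u i))
  map_add' w w' := Subtype.ext (map_add (tr u i) w.1 w'.1)

/-- the quotient -/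
def oquo {G : ∀ k : ℤ, AddSubgroup ((𝟙_ T)⟦k⟧ ⟶ R' ⊗ (X ⊗ c.C))} (hG : Stab G)
    (θ : ∀ k, G k →+ ((𝟙_ T)⟦k⟧ ⟶ R' ⊗ (B ⊗ c.C)))
    (hc : ∀ (j k m : ℤ) (e : (𝟙_ T)⟦j⟧ ⊗ R' ⟶ R') (v : (𝟙_ T)⟦m⟧ ⟶ (𝟙_ T)⟦j⟧ ⊗ (𝟙_ T)⟦k⟧)
      (y : G k), θ m ⟨opn e v y.1, hG j k m e v _ y.2⟩ = opn e v (θ k y)) :
    OQuo (osub u hG) B where
  θ i := (tr u i).symm.toAddMonoidHom.comp ((θ (2 * i)).comp (osubHom u hG i))
  comm {i j l} e h w := by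
    have h1 : osubHom u hG l ⟨opw e h w.1, (osub u hG).op e h w.2⟩ =
        ⟨opn (trE u e) (trU h) (osubHom u hG i w).1, hG _ _ _ _ _ _ (osubHom u hG i w).2⟩ :=
      Subtype.ext (tr_opw u e h w.1)
    have h2 := hc (2 * j) (2 * i) (2 * l) (trE u e) (trU h) (osubHom u hG i w)
    apply (tr u l).injective
    rw [tr_opw]
    change tr u l ((tr u l).symm (θ (2 * l) (osubHom u hG l _))) =
      trU h ≫ (_ ◁ (tr u i ((tr u i).symm (θ (2 * i) (osubHom u hG i w))))) ≫ _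
    rw [AddEquiv.apply_symm_apply, AddEquiv.apply_symm_apply, h1]
    exact h2

theorem oquo_surj {G : ∀ k : ℤ, AddSubgroup ((𝟙_ T)⟦k⟧ ⟶ R' ⊗ (X ⊗ c.C))} (hG : Stab G)
    (θ : ∀ k, G k →+ ((𝟙_ T)⟦k⟧ ⟶ R' ⊗ (B ⊗ c.C)))
    (hc : ∀ (j k m : ℤ) (e : (𝟙_ T)⟦j⟧ ⊗ R' ⟶ R') (v : (𝟙_ T)⟦m⟧ ⟶ (𝟙_ T)⟦j⟧ ⊗ (𝟙_ T)⟦k⟧)
      (y : G k), θ m ⟨opn e v y.1, hG j k m e v _ y.2⟩ = opn e v (θ k y))
    (hs : ∀ k, Function.Surjective (θ k)) (i : ℤ) : Function.Surjective ((oquo u hG θ hc).θ i) := by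
  intro z
  obtain ⟨⟨y, hy⟩, hy'⟩ := hs (2 * i) (tr u i z)
  have h1 : tr u i ((tr u i).symm y) = y := AddEquiv.apply_symm_apply _ _
  refine ⟨⟨(tr u i).symm y, (mem_osub u).2 (by rw [h1]; exact hy)⟩, ?_⟩
  apply (tr u i).injective
  rw [← hy']
  change tr u i ((tr u i).symm (θ (2 * i) _)) = _
  rw [AddEquiv.apply_symm_apply]
  congr 1
  exact Subtype.ext h1

theorem oquo_ker {G F : ∀ k : ℤ, AddSubgroup ((𝟙_ T)⟦k⟧ ⟶ R' ⊗ (X ⊗ c.C))} (hG : Stab G)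
    (hF : Stab F) (θ : ∀ k, G k →+ ((𝟙_ T)⟦k⟧ ⟶ R' ⊗ (B ⊗ c.C)))
    (hc : ∀ (j k m : ℤ) (e : (𝟙_ T)⟦j⟧ ⊗ R' ⟶ R') (v : (𝟙_ T)⟦m⟧ ⟶ (𝟙_ T)⟦j⟧ ⊗ (𝟙_ T)⟦k⟧)
      (y : G k), θ m ⟨opn e v y.1, hG j k m e v _ y.2⟩ = opn e v (θ k y))
    (hk : ∀ k y, y ∈ F k ↔ ∃ h : y ∈ G k, θ k ⟨y, h⟩ = 0) (i : ℤ)
    (x : (stdEven T).S i ⟶ c.R ⊗ (X ⊗ c.C)) : x ∈ (osub u hF).A i ↔
      ∃ hx : x ∈ (osub u hG).A i, (oquo u hG θ hc).θ i ⟨x, hx⟩ = 0 := by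
  rw [mem_osub, hk]
  refine exists_congr fun hx => ?_
  change _ ↔ (tr u i).symm (θ (2 * i) _) = 0
  rw [map_eq_zero_iff _ (tr u i).symm.injective]
  rfl

theorem stab_ker {G F : ∀ k : ℤ, AddSubgroup ((𝟙_ T)⟦k⟧ ⟶ R' ⊗ (X ⊗ c.C))} (hG : Stab G)
    (θ : ∀ k, G k →+ ((𝟙_ T)⟦k⟧ ⟶ R' ⊗ (B ⊗ c.C)))
    (hc : ∀ (j k m : ℤ) (e : (𝟙_ T)⟦j⟧ ⊗ R' ⟶ R') (v : (𝟙_ T)⟦m⟧ ⟶ (𝟙_ T)⟦j⟧ ⊗ (𝟙_ T)⟦k⟧)
      (y : G k), θ m ⟨opn e v y.1, hG j k m e v _ y.2⟩ = opn e v (θ k y))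
    (hk : ∀ k y, y ∈ F k ↔ ∃ h : y ∈ G k, θ k ⟨y, h⟩ = 0) : Stab F := by
  intro j k m e v y hy
  obtain ⟨h1, h2⟩ := (hk k y).1 hy
  refine (hk m _).2 ⟨hG j k m e v y h1, ?_⟩
  have h3 := hc j k m e v ⟨y, h1⟩
  rw [h3, h2, opn_zero]

/-- the zero filtration -/
theorem flt_zero {G : ∀ k : ℤ, AddSubgroup ((𝟙_ T)⟦k⟧ ⟶ R' ⊗ (X ⊗ c.C))} (hG : Stab G)
    (h0 : ∀ k, G k = ⊥) {J : Type} {B : J → OM (ZMod p) c.O c.dego} :
    OM.Flt B (sOM (osub u hG)) [] := by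
  have h2 : ∀ (i : ℤ) (x : (stdEven T).S i ⟶ c.R ⊗ (X ⊗ c.C)), tr u i x ∈ G (2 * i) → x = 0 := by
    intro i x h1
    rw [h0, AddSubgroup.mem_bot, map_eq_zero_iff (tr u i) (tr u i).injective] at h1
    exact h1
  exact .nil fun i x => Subtype.ext (h2 i x.1 x.2)

/-- a step of the filtration -/
theorem flt_step {G F : ∀ k : ℤ, AddSubgroup ((𝟙_ T)⟦k⟧ ⟶ R' ⊗ (X ⊗ c.C))} (hG : Stab G)
    (hF : Stab F) {l : ℤ} (θ : ∀ k, G k →+ ((𝟙_ T)⟦k⟧ ⟶ R' ⊗ (B⟦2 * l⟧ ⊗ c.C)))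
    (hc : ∀ (j k m : ℤ) (e : (𝟙_ T)⟦j⟧ ⊗ R' ⟶ R') (v : (𝟙_ T)⟦m⟧ ⟶ (𝟙_ T)⟦j⟧ ⊗ (𝟙_ T)⟦k⟧)
      (y : G k), θ m ⟨opn e v y.1, hG j k m e v _ y.2⟩ = opn e v (θ k y))
    (hs : ∀ k, Function.Surjective (θ k))
    (hk : ∀ k y, y ∈ F k ↔ ∃ h : y ∈ G k, θ k ⟨y, h⟩ = 0) {J : Type} {B' : J → T}
    {L : List (J × ℤ)} (h : OM.Flt (fun l => c.OM (B' l)) (sOM (osub u hF)) L) :
    OM.Flt (fun x : Option J => c.OM (x.elim B B')) (sOM (osub u hG))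
      ((none, l) :: L.map fun q => (some q.1, q.2)) := by
  obtain ⟨e⟩ := c.shiftM B l (2 * l) rfl
  have hS := (sSes (oquo u hG θ hc) (oquo_surj u hG θ hc hs) (oquo_ker u hG hF θ hc hk)).ofIsoQ e
  exact OM.Flt.cons (l := (none : Option J)) hS (flt_reindex
    (B := fun x : Option J => c.OM (x.elim B B')) some h)

end step

end Vale.Agent.P221.H658
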