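import Vale.Agent.P221.H658.K4
import Vale.Agent.P221.H658.B123
import Vale.Agent.P221.H817.D3MU
import Vale.Agent.P221.H174.ShiftOM
import Vale.Agent.P221.H174.Zero
import Vale.Agent.P221.GMLem
import Vale.Agent.P221.H521.A2
import Vale.Agent.P221.H521.A3
import Vale.Agent.P221.H609.A1

/-!
# P221: the input of the final induction for `MU`

* `KK.of_isoR` : change of the target;
* `fiHyp` : `FIHyp` for forms of `BP⟨n⟩_p`.
-/

open CategoryTheory MonoidalCategory Limits Pretriangulated MonObj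
open Vale.Agent.P251.T Vale.Agent.P251.M Vale.Agent.P251.S
open Vale.Agent.P251.M.EvenSpheres

set_option linter.unusedSectionVars false

noncomputable section

namespace Vale.Agent.P221.H658

section alg

open GM

variable {k : Type} [CommRing k] {M R R' : GM k} {P : Set ℕ} {q : ℕ → ℕ} {t₀ : ℤ}

/-- push forward of functionals -/
def pushF (f : Lin Set.univ R R') {t : ℤ} : Fn M R t →ₗ[k] Fn M R' t where
  toFun φ := fun r => f.f r.1.2 ∘ₗ φ r
  map_add' φ ψ := by
    funext r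
    ext x
    exact map_add (f.f r.1.2) _ _
  map_smul' c φ := by
    funext r
    ext x
    exact map_smul (f.f r.1.2) c _

theorem pushF_apply (f : Lin Set.univ R R') {t : ℤ} (φ : Fn M R t) (r : Ix t) (x : M.A r.1.1) :
    pushF f φ r x = f.f r.1.2 (φ r x) := rfl

theorem Th_pushF (f : Lin Set.univ R R') {t t' : ℤ} {m : ℕ} (ht : t + ((m : ℤ) + 1) = t')
    (φ : Fn M R t) : Th m ht (pushF f φ) = pushF f (Th m ht φ) := by
  funext ⟨⟨i, j⟩, hij⟩
  have hij' : i + t' = j := hij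
  ext x
  have e1 := Th_apply m ht (pushF f φ) hij' rfl (by omega) (j' := i + t) rfl (by omega) x
  have e2 := Th_apply m ht φ hij' rfl (by omega) (j' := i + t) rfl (by omega) x
  refine e1.trans ?_
  rw [pushF_apply, pushF_apply]
  have e3 : pushF f (Th m ht φ) (ix hij') x = f.f j (Th m ht φ (ix hij') x) := rfl
  refine Eq.trans ?_ e3.symm
  rw [e2, map_sub, f.comm m (Set.mem_univ _)]

theorem Com_pushF (f : Lin Set.univ R R') {t : ℤ} {m : ℕ} {φ : Fn M R t} (h : Com m φ) :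
    Com m (pushF f φ) := by
  rw [com_iff_Th m rfl] at h ⊢
  rw [Th_pushF, h, map_zero]

theorem Hol_pushF (f : Lin Set.univ R R') {t : ℤ} {m : ℕ} {φ : Fn M R t} (h : Hol P q m φ) :
    Hol P q m (pushF f φ) :=
  ⟨fun i hi => Com_pushF f (h.com i hi), fun l hl => Com_pushF f (h.com' l hl)⟩

/-- change of the target -/
theorem KK.of_isoR (f : Lin Set.univ R R') (g : Lin Set.univ R' R)
    (hfg : ∀ i y, f.f i (g.f i y) = y) (h : KK P q R M t₀) :
    KK P q R' M t₀ := by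
  have h0 : ∀ {t : ℤ} (φ : Fn M R' t), pushF f (pushF g φ) = φ := by
    intro t φ
    funext r
    ext x
    exact hfg _ _
  refine ⟨h.proj, fun t ht m t' ht' χ hχ => ?_, fun t ht φ hφ => ?_⟩
  · obtain ⟨φ, h1, h2⟩ := h.surj t ht m ht' (pushF g χ) (Hol_pushF g hχ)
    exact ⟨pushF f φ, Hol_pushF f h1, by rw [Th_pushF, h2, h0]⟩
  · obtain ⟨ψ, h1, h2⟩ := h.lim t ht (fun m => pushF g (φ m)) fun m => Hol_pushF g (hφ m)
    refine ⟨fun m => pushF f (ψ m), fun m => Hol_pushF f (h1 m), fun m => ?_⟩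
    rw [← map_sub, ← h2 m, h0]

/-- modules with a finite filtration -/
theorem kk_of_flt {O : Type} {deg : O → ℤ} {I : Type} {B : I → OM k O deg}
    (hB : ∀ l, KK P q R (B l).M 0) {M : OM k O deg} {L : List (I × ℤ)} (h : OM.Flt B M L)
    (hL : ∀ a ∈ L, 0 ≤ a.2) : KK P q R M.M 0 := by
  induction h with
  | nil h0 => exact KK.of_subsingleton fun i => ⟨fun x y => by rw [h0 i x, h0 i y]⟩
  | @cons M' M l a L S _ ih =>
    refine KK.ext S.toSes (ih fun a ha => hL a (List.mem_cons_of_mem _ ha)) ?_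
    exact (hB l).shift a (by
      have h1 : 0 ≤ a := hL (l, a) List.mem_cons_self
      omega)

end alg

open Vale.Agent.P251.F Vale.Agent.P251.I Vale.Agent.P251.Z Vale.Agent.P257.H80
  Vale.Agent.P217 Vale.Agent.P221.H174 Vale.Agent.P221.H924 Vale.Agent.P093.N0 Vale.Agent.P251.St
  Vale.Agent.P221.H509

variable {T : SHCat} {S : Susp T} {p : ℕ} [hp : Fact p.Prime] {n : ℕ} {D : MUData T.C}

theorem qi_not_mem (m : ℕ) : qi p n m ∉ {m | ¬ IsQ p n m} := fun h => h ⟨m, rfl⟩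

theorem qi_cover (m : ℕ) : m ∈ {m | ¬ IsQ p n m} ∨ ∃ l, m = qi p n l := by
  by_cases h : IsQ p n m
  · exact Or.inr h
  · exact Or.inl h

theorem qi_injective : Function.Injective (qi p n) := by
  intro a b h
  have h1 : ∀ l, 2 ≤ p ^ (n + 1 + l) := fun l => two_le_pow hp.out (by omega)
  have h2 : p ^ (n + 1 + a) = p ^ (n + 1 + b) := by
    have := h1 a
    have := h1 b
    unfold qi at h
    omega
  have h3 := Nat.pow_right_injective hp.out.two_le h2
  omega

/-- the base case, for the module `M(B)` of a form and the target `B' / p` -/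
theorem kk_form (hA : MUAll D) {C : T.C} {i : 𝟙_ T.C ⟶ C} {δ : C ⟶ (𝟙_ T.C)⟦(1 : ℤ)⟧}
    (hC : Triangle.mk ((p : ℤ) • 𝟙 (𝟙_ T.C)) i δ ∈ distTriang T.C)
    {F : SpaceFunctor T.C} {e : F.S.obj CCF ≅ (stdEven T.C).L} (hD : MUUniv e D)
    {B : T.C} {L : ModStr D.R (B ⊗ C)} {Q : Form p n} (Φ : FormOut D L Q)
    {B' : T.C} {L' : ModStr D.R B'} {Q' : Form p n} (Φ' : FormOut D (L'.tensorRight C) Q') :
    GM.KK {m | ¬ IsQ p n m} (qi p n) (fdata hA hC L').t.G ((Ctx.ofMU D hA hC).M B) 0 := by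
  obtain ⟨G, H, h1, h2⟩ := exists_MC_iso hA hC hD Φ
  obtain ⟨G', H', h3, h4⟩ := exists_gmIso hA hC Φ' (fdata hA hC L').pN
  have hp2 : 2 ≤ p := hp.out.two_le
  have h5 := H521.kk_MC (specB1 p n) (specB3 p n) Q Q' (specB2 p n)
    (specA2_of p n (ZMod p) hp2 (H609.specA1 p n hp2 (ZMod p))) (specA3 p n hp2)
  have h6 : GM.KK {m | ¬ IsQ p n m} (qi p n) (fdata hA hC L').t.G (Q.MC (specB3 p n)) 0 :=
    KK.of_isoR H' G' h3 h5
  exact GM.KK.of_iso G (fun j => Function.bijective_iff_has_inverse.2 ⟨H.f j, h1 j, h2 j⟩) h6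

/-- **the input of the final induction** -/
theorem fiHyp (hA : MUAll D) {C : T.C} {i : 𝟙_ T.C ⟶ C} {δ : C ⟶ (𝟙_ T.C)⟦(1 : ℤ)⟧}
    (hC : Triangle.mk ((p : ℤ) • 𝟙 (𝟙_ T.C)) i δ ∈ distTriang T.C)
    {F : SpaceFunctor T.C} {e : F.S.obj CCF ≅ (stdEven T.C).L} (hD : MUUniv e D)
    {J : Type} {B : J → T.C} (hB : ∀ l, H395.PComplete p (B l)) {L : ∀ l, ModStr D.R (B l)}
    {Q : J → Form p n} (Φ : ∀ l, FormOut D ((L l).tensorRight C) (Q l)) :
    FIHyp (fun l => fdata hA hC (L l)) {m | ¬ IsQ p n m} (qi p n) where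
  complete := hB
  conn l := ⟨0, conn_of_form (Φ l) (hB l) hC⟩
  odd l j x := odd_M hA hC (Φ l) j x
  det l j y h := by
    obtain ⟨b, -, -⟩ := exists_rbas D hD
    refine det (c := Ctx.ofMU D hA hC) b ((L l).tensorRight C) y fun o j' h' => ?_
    have h1 := h o j' h'
    exact (cB_apply hA hC (Φ l) (hB l) j' _).symm.trans h1
  cover := qi_cover
  kk l M Ls h hL := kk_of_flt (fun l' => kk_form hA hC hD (Φ l') (Φ l)) h hL
  kk_shift l l' a ha := (kk_form hA hC hD (Φ l') (Φ l)).shift a (by omega)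
  kk_zero l M h := GM.KK.of_subsingleton fun i => ⟨fun x y => by rw [h i x, h i y]⟩
  kk_iso l M M' e h := GM.KK.of_iso e.symm.f.f e.symm.bij h
  uct l X hX := H817.uct_ofMU D hA hC (fdata hA hC (L l)).t (fun k f => (Φ l).odd k f)
    qi_not_mem qi_injective qi_cover X hX
  shiftM X a b h := (Ctx.ofMU D hA hC).shiftM X a b h
  zero X m := zero_ofMU D hA hC X m

end Vale.Agent.P221.H658
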