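import Vale.Agent.P221.H658.E0
import Vale.Agent.P221.H658.E1
import Vale.Agent.P221.H658.FIH
import Vale.Agent.P221.St.Ext
import Vale.Agent.P221.T.H598.HBfin
import Vale.Agent.P221.H174.NonVac
import Vale.Agent.P221.H521.ThickTen

/-!
# P221 (E'): `MU_* (X / p)` a finite iterated extension of `MU_* (B / p)`

* `exists_iso_of_isMU` : `MU` of the statement layer;
* `flt_of_isExt` : the filtration of `M(X)`;
* `thick_of_isMUExt` : `IsMUExt S p n X` implies `Thick B X` for every standard form `B`.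
-/

open CategoryTheory MonoidalCategory Limits Pretriangulated MonObj
open Vale.Agent.P251.T Vale.Agent.P251.M Vale.Agent.P251.S
open Vale.Agent.P251.M.EvenSpheres

set_option linter.unusedSectionVars false

noncomputable section

namespace Vale.Agent.P221.H658

open Vale.Agent.P251 Vale.Agent.P251.F Vale.Agent.P251.I Vale.Agent.P251.Z Vale.Agent.P257.H80
  Vale.Agent.P257.H702 Vale.Agent.P217 Vale.Agent.P221.H174 Vale.Agent.P221.H924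
  Vale.Agent.P093.N0 Vale.Agent.P251.St Vale.Agent.P221.H509

variable {T : SHCat} {S : Susp T} {p : ℕ} [hp : Fact p.Prime] {n : ℕ} {D : MUData T.C}

/-- `MU` of the statement layer -/
theorem exists_iso_of_isMU (U : MUFam (P251.M.lineIso S.toSpaceFunctor) D) {R : RingSp T}
    {o : P251.St.Oriented S R} (h : P221.StL.IsMU o) : Nonempty (D.R ≅ R.obj) := by
  obtain ⟨b, hb, ho⟩ := U.exists_mapS o
  obtain ⟨o', ho'⟩ := U.exists_orient (R := ⟨D.R⟩) (𝟙 D.R)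
  obtain ⟨f, ⟨hf1, hf2⟩, -⟩ := h ⟨D.R⟩ o'
  have hf := (isRingMap_iff f).1 hf1
  have h1 : b ≫ f = 𝟙 D.R := (U.orMap_iff ho ho' f).1 hf2
  have h2 : f ≫ b = 𝟙 R.obj := (h R o).unique
    ⟨(isRingMap_iff _).2 inferInstance, (U.orMap_iff ho ho (f ≫ b)).2 (by
      rw [← Category.assoc, h1, Category.id_comp])⟩
    ⟨(isRingMap_iff _).2 inferInstance, (U.orMap_iff ho ho (𝟙 R.obj)).2 (Category.comp_id _)⟩
  exact ⟨⟨b, f, h1, h2⟩⟩

theorem even_zero_of_odd {Y Z : T.C} {j : ℤ} (e : Y ≅ Z⟦(1 : ℤ)⟧)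
    (h : ∀ f : (𝟙_ T.C)⟦2 * (j - 1) + 1⟧ ⟶ Z, f = 0) (x : (stdEven T.C).S j ⟶ Y) : x = 0 := by
  have h5 := eq_zero_of_shift (2 * (j - 1) + 1) 1 (2 * j) (by ring) h
    ((stdSph j).inv ≫ x ≫ e.hom)
  rw [← cancel_epi (stdSph j).inv, ← cancel_mono e.hom, Category.assoc, h5, comp_zero, zero_comp]

variable (hA : MUAll D) {M : T.C} {i : 𝟙_ T.C ⟶ M} {δ : M ⟶ (𝟙_ T.C)⟦(1 : ℤ)⟧}
  (hM : Triangle.mk ((p : ℤ) • 𝟙 (𝟙_ T.C)) i δ ∈ distTriang T.C)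

include hA hM in
theorem odd_susp (hD : MUUniv (P251.M.lineIso S.toSpaceFunctor) D)
    (U : MUFam (P251.M.lineIso S.toSpaceFunctor) D) {R : T.C} (u : D.R ≅ R) {B : T.C}
    (hB : P221.StL.IsStandardForm S p n B) (l k : ℤ)
    (y : (𝟙_ T.C)⟦2 * k + 1⟧ ⟶ R ⊗ (B⟦2 * l⟧ ⊗ M)) : y = 0 := by
  obtain ⟨-, -, L, Q, ⟨Φ⟩⟩ := exists_form' hD hA U hM (isForm_of_isStandardForm hD hA U (isStandardForm_of hB))
  have h1 : ∀ (k : ℤ) (f : (𝟙_ T.C)⟦2 * k + 1⟧ ⟶ B⟦2 * l⟧ ⊗ M), f = 0 := by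
    intro k f
    have h2 := eq_zero_of_shift (2 * (k - l) + 1) (2 * l) (2 * k + 1) (by ring)
      (Φ.odd (k - l)) (f ≫ (shL B M (2 * l)).hom)
    rw [← cancel_mono (shL B M (2 * l)).hom, h2, zero_comp]
  have h3 := odd_RY D h1 k (y ≫ (u.inv ▷ _))
  rw [← cancel_mono (u.inv ▷ (B⟦2 * l⟧ ⊗ M)), h3, zero_comp]

/-- **The filtration of `M(X)`.** -/
theorem flt_of_isExt (c : Ctx T.C p) {R : T.C} (u : c.R ≅ R) {X : T.C}
    (hodd : ∀ B : T.C, P221.StL.IsStandardForm S p n B → ∀ (l k : ℤ)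
      (y : (𝟙_ T.C)⟦2 * k + 1⟧ ⟶ R ⊗ (B⟦2 * l⟧ ⊗ c.C)), y = 0)
    {G : ∀ k : ℤ, ((𝟙_ T.C)⟦k⟧ ⟶ R ⊗ (X ⊗ c.C)) → Prop}
    (h : P221.StL.IsExt S p n R c.C (X ⊗ c.C) G) :
    (∀ (k : ℤ) (y : (𝟙_ T.C)⟦2 * k + 1⟧ ⟶ R ⊗ (X ⊗ c.C)), G (2 * k + 1) y → y = 0) ∧
    ∃ G' : ∀ k : ℤ, AddSubgroup ((𝟙_ T.C)⟦k⟧ ⟶ R ⊗ (X ⊗ c.C)), (∀ k y, y ∈ G' k ↔ G k y) ∧
    ∃ (hG : Stab G') (J : Type) (B : J → T.C),
      (∀ l, P221.StL.IsStandardForm S p n (B l)) ∧ ∃ L : List (J × ℤ),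
        OM.Flt (fun l => c.OM (B l)) (sOM (osub u hG)) L := by
  induction h with
  | zero =>
    exact ⟨fun k y hy => hy, fun _ => ⊥, fun k y => AddSubgroup.mem_bot, stab_bot, Empty,
      fun x => x.elim, fun x => x.elim, [], flt_zero u stab_bot fun _ => rfl⟩
  | @step F G B l θ _ hB hs ih =>
    obtain ⟨h1, F', hF', hF, J, B', hB', L, hL⟩ := ih
    choose G' f hG' hsurj hker hθ using fun k =>
      exists_hom_of_rel (hs.dom k) (hs.ker k) (hs.sub k) (hs.zero k) (hs.surj k)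
    have hop : ∀ (j k m : ℤ) (e : (𝟙_ T.C)⟦j⟧ ⊗ R ⟶ R)
        (v : (𝟙_ T.C)⟦m⟧ ⟶ (𝟙_ T.C)⟦j⟧ ⊗ (𝟙_ T.C)⟦k⟧) (y : G' k),
        θ m (opn e v y.1) (opn e v (f k y)) := fun j k m e v y =>
      hs.op j k m e v y.1 (f k y) ((hθ k y (f k y)).2 rfl)
    have hG : Stab G' := by
      intro j k m e v y hy
      exact (hG' m _).2 ((hs.dom m _).2 ⟨_, hop j k m e v ⟨y, hy⟩⟩)
    refine ⟨fun k y hy => ?_, G', hG', hG, Option J, fun x => x.elim B B', ?_, _,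
      flt_step u hG hF f (fun j k m e v y => ?_) hsurj
        (fun k y => (hF' k y).trans (hker k y)) hL⟩
    · refine h1 k y ((hker _ _).2 ⟨(hG' _ _).2 hy, ?_⟩)
      exact hodd B hB l k _
    · rintro (_ | x)
      · exact hB
      · exact hB' x
    · exact (hθ m ⟨opn e v y.1, hG j k m e v _ y.2⟩ _).1 (hop j k m e v y)

/-- **(E')** -/
theorem thick_of_isMUExt {B X : T.C} (hB : P221.StL.IsStandardForm S p n B)
    (hX : P221.StL.IsMUExt S p n X) : P221.StL.Thick B X := by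
  obtain ⟨hc, ⟨N, hN⟩, R, o, M, i, δ, ho, hM, hG⟩ := hX
  obtain ⟨D, hD, hA, ⟨U⟩⟩ := H924.exists_mu S.toSpaceFunctor (P251.M.lineIso S.toSpaceFunctor)
  obtain ⟨u⟩ := exists_iso_of_isMU U ho
  have hM' : Triangle.mk ((p : ℤ) • 𝟙 (𝟙_ T.C)) i δ ∈ distTriang T.C := hM
  obtain ⟨hodd, G', hG1, hG', J, B', hB', L, hL⟩ := flt_of_isExt (Ctx.ofMU D hA hM') u
    (fun B hB l k y => odd_susp hA hM' hD U u hB l k y) hG
  have hB1 : ∀ l, P221.St.IsForm S p n (B' l) := fun l => isForm_of_isStandardForm hD hA U (isStandardForm_of (hB' l))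
  choose h1 h2 L' Q Φ using fun l => exists_form' hD hA U hM' (hB1 l)
  have hFI := fiHyp hA hM' hD (B := B') h1 (L := L') (Q := Q) fun l => (Φ l).some
  have hT : ∀ {Y Z : T.C}, (Y ≅ Z) → P221.StL.Thick B Y → P221.StL.Thick B Z := fun e h =>
    .retract e.inv e.hom e.inv_hom_id h
  refine hFI.mem (K := fun Y => P221.StL.Thick B Y)
    (fun Y hY => .zero ((IsZero.iff_id_eq_zero _).1 hY)) (fun Y k hY => .susp k hY)
    (fun Y Z e hY => hT e hY) (fun X Y Z f g h hd hX hZ => ?_) (fun l => ?_) L.length L rfl X N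
    (fun k hk f => hN k hk f) hc (fun j x => ?_)
    (hL.ofIso (sTop fun j => ?_))
  · -- extensions
    have hd' := inv_rot_of_distTriang _ hd
    exact .cof hd' (.susp (-1) hZ) hX
  · exact thickL_of (Vale.Agent.P221.T.H598.thick_of_isBPFinite (isForm_of_isStandardForm hD hA U (isStandardForm_of hB))
      (isBPFinite_of_isForm (hB1 l)))
  · -- `M(X⟦1⟧) = 0`
    let e : D.R ⊗ (X⟦(1 : ℤ)⟧ ⊗ M) ≅ (D.R ⊗ (X ⊗ M))⟦(1 : ℤ)⟧ :=
      whiskerLeftIso D.R (shL X M 1) ≪≫ shR D.R (X ⊗ M) 1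
    exact even_zero_of_odd e (fun f => zero_of_whisker u (fun y => hodd (j - 1) y trivial) f) x
  · rw [eq_top_iff]
    exact fun w _ => (hG1 (2 * j) (tr u j w)).2 trivial

end Vale.Agent.P221.H658
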