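import Vale.Agent.P221.H658.E2

/-!
# P221 (E'): the class of the theorem contains the standard forms

* `exists_isMU` : `MU` exists;
* `isMUExt_of_isStandardForm`;
* `thick_iff_isMUExt` : `Thick B` is the thick subcategory generated by the class `IsMUExt S p n`.
-/

open CategoryTheory MonoidalCategory Limits Pretriangulated MonObj
open Vale.Agent.P251.T Vale.Agent.P251.M Vale.Agent.P251.S
open Vale.Agent.P251.M.EvenSpheres

set_option linter.unusedSectionVars false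

noncomputable section

namespace Vale.Agent.P221.H658

open Vale.Agent.P251 Vale.Agent.P251.F Vale.Agent.P251.I Vale.Agent.P251.Z Vale.Agent.P257.H80
  Vale.Agent.P257.H702 Vale.Agent.P217 Vale.Agent.P221.H174 Vale.Agent.P221.H924
  Vale.Agent.P093.N0 Vale.Agent.P251.St Vale.Agent.P221.H509

variable {T : SHCat} {S : Susp T} {p : ℕ} {n : ℕ}

/-- `MU` exists -/
theorem exists_isMU (S : Susp T) : ∃ (R : RingSp T) (o : P251.St.Oriented S R), P221.StL.IsMU o := by
  obtain ⟨D, -, -, ⟨U⟩⟩ := H924.exists_mu S.toSpaceFunctor (P251.M.lineIso S.toSpaceFunctor)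
  obtain ⟨o, ho⟩ := U.exists_orient (R := ⟨D.R⟩) (𝟙 D.R)
  refine ⟨⟨D.R⟩, o, fun R' o' => ?_⟩
  obtain ⟨u, hu, h⟩ := U.exists_mapS o'
  refine ⟨u, ⟨(isRingMap_iff (R := ⟨D.R⟩) u).2 hu, (U.orMap_iff ho h u).2 (Category.id_comp u)⟩, ?_⟩
  rintro g ⟨hg1, hg2⟩
  have hg := (isRingMap_iff (R := ⟨D.R⟩) g).1 hg1
  have h1 := (U.orMap_iff ho h g).1 hg2
  rwa [Category.id_comp] at h1

/-- maps of spectra commute with the operations -/
theorem operate_comp {R Z Z' : T.C} {j k m : ℤ} (e : SHCat.Hom (SHCat.ten (sphere T j) R) R)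
    (u : SHCat.Hom (sphere T m) (SHCat.ten (sphere T j) (sphere T k)))
    (y : SHCat.Hom (sphere T k) (SHCat.ten R Z)) (f : Z ⟶ Z') :
    P221.StL.operate e u (y ≫ (R ◁ f)) = P221.StL.operate e u y ≫ (R ◁ f) := by
  change u ≫ (sphere T j ◁ (y ≫ (R ◁ f))) ≫ (α_ (sphere T j) R Z').inv ≫ (e ▷ Z') =
    (u ≫ (sphere T j ◁ y) ≫ (α_ (sphere T j) R Z).inv ≫ (e ▷ Z)) ≫ (R ◁ f)
  simp only [Category.assoc, MonoidalCategory.whiskerLeft_comp]
  rw [← whisker_exchange, associator_inv_naturality_right_assoc]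

/-- the standard forms belong to the class -/
theorem isMUExt_of_isStandardForm (hp : p.Prime) {B : T.C}
    (hB : P221.StL.IsStandardForm S p n B) : P221.StL.IsMUExt S p n B := by
  have : Fact p.Prime := ⟨hp⟩
  obtain ⟨D, hD, hA, ⟨U⟩⟩ := H924.exists_mu S.toSpaceFunctor (P251.M.lineIso S.toSpaceFunctor)
  obtain ⟨M, i, δ, hM⟩ := H746.exists_moore (𝒯 := T.C) (p : ℤ)
  obtain ⟨h1, h2, -⟩ := exists_form' hD hA U hM (isForm_of_isStandardForm hD hA U (isStandardForm_of hB))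
  obtain ⟨R, o, ho⟩ := exists_isMU S
  refine ⟨h1, ⟨0, fun k hk f => h2 k hk f⟩, R, o, M, i, δ, ho, hM, ?_⟩
  let e : B ≅ P221.StL.susp (2 * 0) B := ((shiftFunctorZero' T.C (2 * 0 : ℤ) (by norm_num)).app B).symm
  let f : B ⊗ M ⟶ P221.StL.susp (2 * 0) B ⊗ M := e.hom ▷ M
  let f' : P221.StL.susp (2 * 0) B ⊗ M ⟶ B ⊗ M := e.inv ▷ M
  have hf : f ≫ f' = 𝟙 _ := by
    change (e.hom ▷ M) ≫ (e.inv ▷ M) = _
    rw [← comp_whiskerRight, e.hom_inv_id, id_whiskerRight]
  have hf' : f' ≫ f = 𝟙 _ := by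
    change (e.inv ▷ M) ≫ (e.hom ▷ M) = _
    rw [← comp_whiskerRight, e.inv_hom_id, id_whiskerRight]
  have hinj : ∀ (k : ℤ) (y : SHCat.Hom (sphere T k) (SHCat.ten R.obj (SHCat.ten B M))),
      y ≫ (R.obj ◁ f) = 0 → y = 0 := by
    intro k y hy
    have h3 : (y ≫ (R.obj ◁ f)) ≫ (R.obj ◁ f') = y := by
      rw [Category.assoc, ← MonoidalCategory.whiskerLeft_comp, hf,
        MonoidalCategory.whiskerLeft_id, Category.comp_id]
    rw [← h3, hy, zero_comp]
  have hsurj : ∀ (k : ℤ) (z : SHCat.Hom (sphere T k)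
      (SHCat.ten R.obj (SHCat.ten (P221.StL.susp (2 * 0) B) M))),
      (z ≫ (R.obj ◁ f')) ≫ (R.obj ◁ f) = z := by
    intro k z
    rw [Category.assoc, ← MonoidalCategory.whiskerLeft_comp, hf',
      MonoidalCategory.whiskerLeft_id, Category.comp_id]
  refine .step (F := fun _ y => y = 0) (B := B) (l := 0)
    (θ := fun k y z => y ≫ (R.obj ◁ f) = z) .zero hB ⟨?_, ?_, ?_, ?_, ?_, ?_⟩
  · exact fun k y => ⟨fun _ => ⟨_, rfl⟩, fun _ => trivial⟩
  · refine fun k y => ⟨?_, fun h => hinj k y h⟩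
    rintro rfl
    exact zero_comp
  · rintro k y y' z z' rfl rfl
    exact Preadditive.sub_comp y y' _
  · rintro k z rfl
    exact zero_comp
  · exact fun k z => ⟨z ≫ (R.obj ◁ f'), hsurj k z⟩
  · rintro j k m e' u y z rfl
    exact (operate_comp e' u y f).symm

/-- **(E')** : `Thick B` is the thick subcategory generated by the class `IsMUExt S p n`. -/
theorem thick_iff_isMUExt (hp : p.Prime) {B : T.C} (hB : P221.StL.IsStandardForm S p n B)
    (X : T.C) : P221.StL.Thick B X ↔ P221.StL.ThickOf (P221.StL.IsMUExt S p n) X := by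
  have : Fact p.Prime := ⟨hp⟩
  refine ⟨thickL_mono ?_, thickL_mono fun Y hY => thick_of_isMUExt hB hY⟩
  rintro _ rfl
  exact .base (isMUExt_of_isStandardForm hp hB)

end Vale.Agent.P221.H658
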