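import Vale.Agent.P221.H658.Rb
import Vale.Agent.P221.H509.Op

/-!
# P221 (K): the elements of `π_{2*}(R ⊗ N)`, `N` an `R`-module

* `RBas R J` : a basis of `R ⊗ R` over the second factor;
* `pr L h u x` : the product of `u ∈ π_{2*}(R ⊗ R)` and `x ∈ π_{2*} N`;
* `exists_expansion` : (K1) every `w ∈ π_{2n}(R ⊗ N)` is a finite sum of products `w_β · x_β`;
* `opw_pr` : (K1') `c_e(u · x) = e^∨(u) · x`;
* `RBas.dual`, `opw_dual_same`, `opw_dual_ne` : the dual operators;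
* `eq_zero_of_ce` : (K3').
-/

open CategoryTheory MonoidalCategory Limits Pretriangulated MonObj
open Vale.Agent.P251.T Vale.Agent.P251.M Vale.Agent.P251.S
open Vale.Agent.P251.M.EvenSpheres

universe u

set_option linter.unusedSectionVars false

noncomputable section

namespace Vale.Agent.P221.H658

variable {T : Type u} [Category.{0} T] [Preadditive T] [HasZeroObject T]
    [HasShift T ℤ] [∀ n : ℤ, (shiftFunctor T n).Additive] [Pretriangulated T] [IsTriangulated T]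
    [MonoidalCategory T] [SymmetricCategory T] [TensorTriangulated T] [MonoidalClosed T]
    [HasCoproducts.{0} T] [HasProducts.{0} T] [StableCat T]

/-- A basis of `R ⊗ R` over the second factor. -/
structure RBas (R : T) [MonObj R] (J : Type) where
  /-- the degrees -/
  k : J → ℤ
  /-- the elements -/
  w (j : J) : (stdEven T).S (k j) ⟶ R ⊗ R
  isIso : IsIso (rb (ModStr.self R) (Sigma.desc w))

/-- a basis over the first factor gives a basis over the second factor -/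
def RBas.ofG {R : T} [MonObj R] [IsCommMonObj R] {J : Type}
    (b : GBasis (stdEven T) (inlM R R) J) : RBas R J where
  k := b.k
  w j := b.w j ≫ (β_ R R).hom
  isIso := by
    have h1 := b.isIso
    have e1 : (fun j => (inlM R R ⊗ₘ b.w j) ≫ μ[R ⊗ R]) =
        fun j => (FM.bind (b.w j) : R ⊗ (stdEven T).S (b.k j) ⟶ R ⊗ R) :=
      funext fun j => inlM_tensor_mul _
    rw [e1, isIso_desc_bind_iff] at h1
    have e2 : (Sigma.desc fun j => b.w j ≫ (β_ R R).hom) = Sigma.desc b.w ≫ (β_ R R).hom := by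
      apply Sigma.hom_ext
      intro j
      rw [Sigma.ι_desc, Sigma.ι_desc_assoc]
    rw [e2, rb_braid]
    infer_instance

variable {R : T} [MonObj R] {N : T} (L : ModStr R N) {J : Type}

/-- the product of `u ∈ π_{2k}(R ⊗ R)` and `x ∈ π_{2m} N` in `π_{2n}(R ⊗ N)` -/
def pr {k m n : ℤ} (h : k + m = n) (u : (stdEven T).S k ⟶ R ⊗ R) (x : (stdEven T).S m ⟶ N) :
    (stdEven T).S n ⟶ R ⊗ N :=
  (stdEven T).ext h u x ≫ (α_ R R N).hom ≫ R ◁ L.act

theorem pr_eq {k m n : ℤ} (h : k + m = n) (u : (stdEven T).S k ⟶ R ⊗ R)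
    (x : (stdEven T).S m ⟶ N) :
    pr L h u x = (stdEven T).ext h (𝟙 ((stdEven T).S k)) x ≫ rb L u := by
  have h1 := ext_comp_left (E := stdEven T) h (𝟙 ((stdEven T).S k)) x u
  rw [Category.id_comp] at h1
  rw [pr, h1, rb, Category.assoc]

theorem pr_add_right {k m n : ℤ} (h : k + m = n) (u : (stdEven T).S k ⟶ R ⊗ R)
    (x x' : (stdEven T).S m ⟶ N) : pr L h u (x + x') = pr L h u x + pr L h u x' := by
  rw [pr, ext_add_right, Preadditive.add_comp, pr, pr]

theorem pr_zero_right {k m n : ℤ} (h : k + m = n) (u : (stdEven T).S k ⟶ R ⊗ R) :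
    pr L h u (0 : (stdEven T).S m ⟶ N) = 0 := by
  rw [pr, ext_zero_right, zero_comp]

theorem pr_add_left {k m n : ℤ} (h : k + m = n) (u u' : (stdEven T).S k ⟶ R ⊗ R)
    (x : (stdEven T).S m ⟶ N) : pr L h (u + u') x = pr L h u x + pr L h u' x := by
  rw [pr, ext_add_left, Preadditive.add_comp, pr, pr]

theorem pr_zero_left {k m n : ℤ} (h : k + m = n) (x : (stdEven T).S m ⟶ N) :
    pr L h (0 : (stdEven T).S k ⟶ R ⊗ R) x = 0 := by
  rw [pr, ext_zero_left, zero_comp]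

theorem pr_linear {N' : T} {L' : ModStr R N'} {f : N ⟶ N'} (hf : L.IsLinear L' f) {k m n : ℤ}
    (h : k + m = n) (u : (stdEven T).S k ⟶ R ⊗ R) (x : (stdEven T).S m ⟶ N) :
    pr L h u x ≫ R ◁ f = pr L' h u (x ≫ f) := by
  rw [pr_eq, Category.assoc, rb_natural hf, ← Category.assoc, ← ext_comp_right, ← pr_eq]

/-- every element of `π_{2n} (S^{2k} ⊗ N)` is the suspension of an element of `π_{2m} N`. -/
theorem exists_ext {k m n : ℤ} (h : k + m = n) (g : (stdEven T).S n ⟶ (stdEven T).S k ⊗ N) :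
    ∃ x : (stdEven T).S m ⟶ N, g = (stdEven T).ext h (𝟙 ((stdEven T).S k)) x := by
  obtain ⟨x, hx⟩ := whiskerLeft_surj ((stdEven T).S k) (((stdEven T).mu k m n h).hom ≫ g)
  refine ⟨x, ?_⟩
  unfold EvenSpheres.ext
  rw [id_tensorHom, ← cancel_epi ((stdEven T).mu k m n h).hom, Iso.hom_inv_id_assoc, hx]

/-- **(K1)** Existence of the expansion. -/
theorem exists_expansion (b : RBas R J) (n : ℤ) (f : (stdEven T).S n ⟶ R ⊗ N) :
    ∃ (t : Finset J) (x : ∀ j, (stdEven T).S (n - b.k j) ⟶ N),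
      f = ∑ j ∈ t, pr L (add_sub_cancel (b.k j) n) (b.w j) (x j) := by
  have := b.isIso
  have := isIso_rb L (Sigma.desc b.w) b.isIso
  obtain ⟨t, g, hg⟩ := compact_sumR N (fun j => (stdEven T).S (b.k j))
    ⟨_, stdEven_sph n⟩ (f ≫ inv (rb L (Sigma.desc b.w)))
  choose x hx using fun j => exists_ext (N := N) (add_sub_cancel (b.k j) n) (g j)
  refine ⟨t, x, ?_⟩
  rw [IsIso.comp_inv_eq] at hg
  rw [hg, Preadditive.sum_comp]
  refine Finset.sum_congr rfl fun j _ => ?_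
  rw [Category.assoc, ← comp_rb, Sigma.ι_desc, hx, pr_eq]

/-! ### (K1') -/

/-- `e^∨ (u)`, `e : S^{2j} ⊗ R ⟶ R`, `u ∈ π_{2k}(R ⊗ R)` -/
def ev {j k l : ℤ} (e : (stdEven T).S j ⊗ R ⟶ R) (h : j + k = l)
    (u : (stdEven T).S k ⟶ R ⊗ R) : (stdEven T).S l ⟶ R := opw e h u ≫ μ[R]

/-- **(K1')** -/
theorem opw_pr {j k m n l q : ℤ} (e : (stdEven T).S j ⊗ R ⟶ R) (h : k + m = n) (h' : j + n = l)
    (h1 : j + k = q) (h2 : q + m = l) (u : (stdEven T).S k ⟶ R ⊗ R)
    (x : (stdEven T).S m ⟶ N) :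
    opw e h' (pr L h u x) ≫ L.act = gsmul L h2 (ev e h1 u) x := by
  unfold opw pr gsmul ev opw
  have e1 := ext_assoc (E := stdEven T) h1 h2 h h' (𝟙 ((stdEven T).S j)) u x
  simp only [Category.assoc]
  rw [ext_comp_right, ← e1, ext_comp_left]
  simp only [Category.assoc, MonoidalCategory.whiskerLeft_comp, comp_whiskerRight]
  have e2 : (α_ ((stdEven T).S j) (R ⊗ R) N).hom ≫ (stdEven T).S j ◁ (α_ R R N).hom ≫
      (α_ ((stdEven T).S j) R (R ⊗ N)).inv = (α_ ((stdEven T).S j) R R).inv ▷ N ≫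
      (α_ ((stdEven T).S j ⊗ R) R N).hom := by
    simp
  rw [L.mul_act, associator_inv_naturality_right_assoc, whisker_exchange_assoc,
    associator_naturality_left_assoc, reassoc_of% e2]

/-! ### Dual operators -/

/-- The pairing `S^{2j} ⊗ S^{2k} ≅ 𝟙`, `j + k = 0`. -/
def kap {j k : ℤ} (h : j + k = 0) : (stdEven T).S j ⊗ (stdEven T).S k ⟶ 𝟙_ T :=
  ((stdEven T).mu j k 0 h).hom ≫ (stdEven T).zero.inv

/-- The operator `S^{2j} ⊗ R ⟶ R` given by `ε : R ⟶ S^{2k} ⊗ R`, `j + k = 0`. -/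
def opOf {j k : ℤ} (h : j + k = 0) (ε : R ⟶ (stdEven T).S k ⊗ R) : (stdEven T).S j ⊗ R ⟶ R :=
  (stdEven T).S j ◁ ε ≫ (α_ ((stdEven T).S j) ((stdEven T).S k) R).inv ≫ kap h ▷ R ≫ (λ_ R).hom

theorem opw_opOf {j k n m : ℤ} (h : j + k = 0) (ε : R ⟶ (stdEven T).S k ⊗ R) (h' : j + n = m)
    (h2 : k + m = n)
    (w : (stdEven T).S n ⟶ R ⊗ N) (x : (stdEven T).S m ⟶ N)
    (hw : w ≫ rb L ε = (stdEven T).ext h2 (𝟙 ((stdEven T).S k)) x) :
    opw (opOf h ε) h' w ≫ L.act = x := by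
  have e1 : opw (opOf h ε) h' w ≫ L.act =
      (stdEven T).ext h' (𝟙 ((stdEven T).S j)) (w ≫ rb L ε) ≫
        (α_ ((stdEven T).S j) ((stdEven T).S k) N).inv ≫ kap h ▷ N ≫ (λ_ N).hom := by
    unfold opw opOf rb
    rw [ext_comp_right]
    simp only [Category.assoc, MonoidalCategory.whiskerLeft_comp, comp_whiskerRight]
    have e2 : (α_ ((stdEven T).S j) ((stdEven T).S k ⊗ R) N).inv ≫
        (α_ ((stdEven T).S j) ((stdEven T).S k) R).inv ▷ N ≫
        (α_ ((stdEven T).S j ⊗ (stdEven T).S k) R N).hom =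
        (stdEven T).S j ◁ (α_ ((stdEven T).S k) R N).hom ≫
          (α_ ((stdEven T).S j) ((stdEven T).S k) (R ⊗ N)).inv := by
      simp
    have e3 : kap h ▷ R ▷ N ≫ (λ_ R).hom ▷ N = (α_ ((stdEven T).S j ⊗ (stdEven T).S k) R N).hom ≫
        kap h ▷ (R ⊗ N) ≫ (λ_ (R ⊗ N)).hom := by
      simp
    have e4 : (stdEven T).S j ◁ (stdEven T).S k ◁ L.act ≫
        (α_ ((stdEven T).S j) ((stdEven T).S k) N).inv ≫ kap h ▷ N ≫ (λ_ N).hom =
        (α_ ((stdEven T).S j) ((stdEven T).S k) (R ⊗ N)).inv ≫ kap h ▷ (R ⊗ N) ≫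
          (λ_ (R ⊗ N)).hom ≫ L.act := by
      rw [associator_inv_naturality_right_assoc, whisker_exchange_assoc, leftUnitor_naturality]
    rw [← associator_inv_naturality_middle_assoc, reassoc_of% e3, reassoc_of% e2, e4]
  rw [e1, hw]
  have e5 := ext_assoc (E := stdEven T) h (zero_add m) h2 h' (𝟙 ((stdEven T).S j))
    (𝟙 ((stdEven T).S k)) x
  rw [← e5]
  simp only [Category.assoc, Iso.hom_inv_id_assoc]
  rw [← Category.assoc, ← ext_comp_left]
  have e6 : (stdEven T).ext h (𝟙 ((stdEven T).S j)) (𝟙 ((stdEven T).S k)) ≫ kap h =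
      (stdEven T).zero.inv ≫ 𝟙 (𝟙_ T) := by
    unfold EvenSpheres.ext kap
    rw [MonoidalCategory.id_tensorHom_id, Category.comp_id, Iso.inv_hom_id_assoc,
      Category.comp_id]
  rw [e6, one_ext]
  simp

namespace RBas

variable (b : RBas R J)

open Classical in
/-- the projection to a summand -/
def proj (β : J) : (∐ fun j => (stdEven T).S (b.k j)) ⟶ (stdEven T).S (b.k β) :=
  Sigma.desc fun j => if h : j = β then eqToHom (by rw [h]) else 0

theorem ι_proj_same (β : J) :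
    Sigma.ι (fun j => (stdEven T).S (b.k j)) β ≫ b.proj β = 𝟙 _ := by
  rw [proj, Sigma.ι_desc, dif_pos rfl, eqToHom_refl]

theorem ι_proj_ne {a β : J} (h : a ≠ β) :
    Sigma.ι (fun j => (stdEven T).S (b.k j)) a ≫ b.proj β = 0 := by
  rw [proj, Sigma.ι_desc, dif_neg h]

/-- the coordinate of `R ⊗ R` -/
def eps (β : J) : R ⟶ (stdEven T).S (b.k β) ⊗ R :=
  haveI := b.isIso
  (ru R R ≫ inv (rb (ModStr.self R) (Sigma.desc b.w))) ≫ b.proj β ▷ R

theorem w_eps (a β : J) : b.w a ≫ rb (ModStr.self R) (b.eps β) =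
    (Sigma.ι (fun j => (stdEven T).S (b.k j)) a ≫ b.proj β) ≫ ru R _ := by
  have := b.isIso
  rw [eps, rb_whiskerRight, rb_ru_inv]
  have h1 : b.w a = Sigma.ι (fun j => (stdEven T).S (b.k j)) a ≫ Sigma.desc b.w := by
    rw [Sigma.ι_desc]
  conv_lhs => rw [h1]
  rw [Category.assoc, ← Category.assoc (Sigma.desc b.w), comp_rb_inv, ← ru_naturality,
    Category.assoc]

/-- the dual operator -/
def dual (β : J) {j : ℤ} (h : j + b.k β = 0) : (stdEven T).S j ⊗ R ⟶ R := opOf h (b.eps β)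

theorem opw_dual_same (β : J) {j m n : ℤ} (h : j + b.k β = 0) (h' : j + n = m)
    (h2 : b.k β + m = n) (x : (stdEven T).S m ⟶ N) :
    opw (b.dual β h) h' (pr L h2 (b.w β) x) ≫ L.act = x := by
  refine opw_opOf L h _ h' h2 _ x ?_
  rw [pr_eq, Category.assoc, rb_rb, w_eps, ι_proj_same, Category.id_comp, rb_ru, Category.comp_id]

theorem opw_dual_ne {a β : J} (ha : a ≠ β) {j m m' n : ℤ} (h : j + b.k β = 0) (h' : j + n = m)
    (h2 : b.k a + m' = n) (x : (stdEven T).S m' ⟶ N) :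
    opw (b.dual β h) h' (pr L h2 (b.w a) x) ≫ L.act = 0 := by
  refine opw_opOf L h _ h' (by omega) _ 0 ?_
  rw [pr_eq, Category.assoc, rb_rb, w_eps, ι_proj_ne _ ha, zero_comp, ext_zero_right]
  unfold rb
  rw [MonoidalPreadditive.zero_whiskerRight, zero_comp, comp_zero]

/-- The coordinates of a sum. -/
theorem opw_dual_sum (t : Finset J) {n : ℤ} (x : ∀ j, (stdEven T).S (n - b.k j) ⟶ N) {β : J}
    (hβ : β ∈ t) :
    opw (b.dual β (neg_add_cancel (b.k β))) (by omega : -b.k β + n = n - b.k β)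
      (∑ j ∈ t, pr L (add_sub_cancel (b.k j) n) (b.w j) (x j)) ≫ L.act = x β := by
  classical
  have key : ∀ (s : Finset J),
      opw (b.dual β (neg_add_cancel (b.k β))) (by omega : -b.k β + n = n - b.k β)
        (∑ j ∈ s, pr L (add_sub_cancel (b.k j) n) (b.w j) (x j)) ≫ L.act =
      ∑ j ∈ s, opw (b.dual β (neg_add_cancel (b.k β))) (by omega : -b.k β + n = n - b.k β)
        (pr L (add_sub_cancel (b.k j) n) (b.w j) (x j)) ≫ L.act := by
    intro s
    induction s using Finset.induction_on with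
    | empty => rw [Finset.sum_empty, Finset.sum_empty, opw_zero, zero_comp]
    | insert j s hj ih =>
      rw [Finset.sum_insert hj, Finset.sum_insert hj, opw_add, Preadditive.add_comp, ih]
  rw [key, Finset.sum_eq_single β]
  · exact b.opw_dual_same L β _ _ _ _
  · intro j _ hj
    exact b.opw_dual_ne L hj _ _ _ _
  · intro h
    exact absurd hβ h

end RBas

/-- **(K1)** The expansion, with the coordinates as coefficients. -/
theorem exists_expansion' (b : RBas R J) (n : ℤ) (w : (stdEven T).S n ⟶ R ⊗ N) :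
    ∃ t : Finset J, w = ∑ j ∈ t, pr L (add_sub_cancel (b.k j) n) (b.w j)
      (opw (b.dual j (neg_add_cancel (b.k j))) (by omega : -b.k j + n = n - b.k j) w ≫ L.act) := by
  obtain ⟨t, x, hx⟩ := exists_expansion L b n w
  refine ⟨t, ?_⟩
  conv_lhs => rw [hx]
  refine Finset.sum_congr rfl fun j hj => ?_
  rw [hx, b.opw_dual_sum L t x hj]

/-- **(K3')** -/
theorem eq_zero_of_ce (b : RBas R J) {n : ℤ} (w : (stdEven T).S n ⟶ R ⊗ N)
    (h : ∀ (j l : ℤ) (e : (stdEven T).S j ⊗ R ⟶ R) (hl : j + n = l), opw e hl w ≫ L.act = 0) :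
    w = 0 := by
  obtain ⟨t, ht⟩ := exists_expansion' L b n w
  rw [ht]
  refine Finset.sum_eq_zero fun j _ => ?_
  rw [h, pr_zero_right]

/-! ### Composition of operators -/

/-- The operator of multiplication by `z`. -/
def mulop {j : ℤ} (z : (stdEven T).S j ⟶ R) : (stdEven T).S j ⊗ R ⟶ R := z ▷ R ≫ μ[R]

theorem opw_mulop {j i l : ℤ} (z : (stdEven T).S j ⟶ R) (h : j + i = l) {Z : T}
    (w : (stdEven T).S i ⟶ R ⊗ Z) : opw (mulop z) h w = gsmul (ModStr.free R Z) h z w := by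
  unfold opw mulop gsmul
  have h1 : (stdEven T).ext h z w = (stdEven T).ext h (𝟙 _) w ≫ z ▷ (R ⊗ Z) := by
    rw [← ext_comp_left, Category.id_comp]
  rw [h1, Category.assoc, comp_whiskerRight, ← associator_inv_naturality_left_assoc]
  rfl

/-- composition of operators -/
def compop {j j' q : ℤ} (h : j + j' = q) (e : (stdEven T).S j ⊗ R ⟶ R)
    (e' : (stdEven T).S j' ⊗ R ⟶ R) : (stdEven T).S q ⊗ R ⟶ R :=
  ((stdEven T).mu j j' q h).inv ▷ R ≫ (α_ _ _ _).hom ≫ (stdEven T).S j ◁ e' ≫ e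

theorem opw_opw {j j' q i l m : ℤ} (h : j + j' = q) (h1 : j' + i = l) (h2 : j + l = m)
    (h3 : q + i = m) (e : (stdEven T).S j ⊗ R ⟶ R)
    (e' : (stdEven T).S j' ⊗ R ⟶ R) {Z : T} (w : (stdEven T).S i ⟶ R ⊗ Z) :
    opw e h2 (opw e' h1 w) = opw (compop h e e') h3 w := by
  unfold opw compop
  rw [ext_comp_right]
  have e1 := ext_assoc (E := stdEven T) h h3 h1 h2 (𝟙 ((stdEven T).S j)) (𝟙 ((stdEven T).S j')) w
  have e2 : (stdEven T).ext h3 ((stdEven T).ext h (𝟙 ((stdEven T).S j)) (𝟙 ((stdEven T).S j'))) w =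
      (stdEven T).ext h3 (𝟙 _) w ≫ ((stdEven T).mu j j' q h).inv ▷ (R ⊗ Z) := by
    rw [← ext_comp_left, Category.id_comp]
    unfold EvenSpheres.ext
    simp
  rw [← e1, e2]
  simp only [Category.assoc, MonoidalCategory.whiskerLeft_comp, comp_whiskerRight]
  simp

end Vale.Agent.P221.H658
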