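import Vale.Agent.P221.H658.K4d

/-!
# P221 (K4): `M(B) = MC Q`

* `FormOut.fo` : the input;
* `exists_MC_iso` : for a form `B`, `M(B) ≅ MC Q` as modules over `k[Y_0, Y_1, …]`.
-/

open CategoryTheory MonoidalCategory Limits Pretriangulated MonObj
open Vale.Agent.P251.T Vale.Agent.P251.M Vale.Agent.P251.S
open Vale.Agent.P251.M.EvenSpheres

set_option linter.unusedSectionVars false

noncomputable section

namespace Vale.Agent.P221.H658

open Vale.Agent.P251.F Vale.Agent.P251.I Vale.Agent.P251.Z Vale.Agent.P257.H80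
  Vale.Agent.P217 Vale.Agent.P221.H174 Vale.Agent.P221.H924 Vale.Agent.P093.N0 Vale.Agent.P251.St

variable {T : SHCat} {p : ℕ} [hp : Fact p.Prime] {n : ℕ} {D : MUData T.C}

/-- the input of (K4) -/
def FO.of {N : T.C} {L : ModStr D.R N} {Q : Form p n} (Φ : FormOut D L Q) : FO D L Q where
  χ := Φ.χ
  law := Φ.law
  Θ := Φ.Θ
  smul := Φ.smul

/-- **(K4)** `M(B) ≅ MC Q` -/
theorem exists_MC_iso (hA : MUAll D) {C : T.C} {i : 𝟙_ T.C ⟶ C} {δ : C ⟶ (𝟙_ T.C)⟦(1 : ℤ)⟧}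
    (hC : Triangle.mk ((p : ℤ) • 𝟙 (𝟙_ T.C)) i δ ∈ distTriang T.C)
    {F : SpaceFunctor T.C} {e : F.S.obj CCF ≅ (stdEven T.C).L} (hD : MUUniv e D)
    {B : T.C} {L : ModStr D.R (B ⊗ C)} {Q : Form p n} (Φ : FormOut D L Q) :
    ∃ (G : GM.Lin Set.univ ((Ctx.ofMU D hA hC).M B) (Q.MC (specB3 p n)))
      (H : GM.Lin Set.univ (Q.MC (specB3 p n)) ((Ctx.ofMU D hA hC).M B)),
      (∀ i x, H.f i (G.f i x) = x) ∧ ∀ i y, G.f i (H.f i y) = y :=
  (FO.of Φ).exists_MC' hA hC hD ((Ctx.ofMU D hA hC).p_zero_RX B)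

end Vale.Agent.P221.H658
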