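import Vale.Agent.P221.H658.K5OM

/-!
# P221 (K4): the action of `π_*(R ⊗ R)` on `π_*(R ⊗ N)`
-/

open CategoryTheory MonoidalCategory Limits Pretriangulated MonObj
open Vale.Agent.P251.T Vale.Agent.P251.M Vale.Agent.P251.S
open Vale.Agent.P251.M.EvenSpheres

universe v u

set_option linter.unusedSectionVars false

noncomputable section

namespace Vale.Agent.P221.H658

section

variable {T : Type u} [Category.{v} T] [MonoidalCategory T] [SymmetricCategory T] {R : T}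
  [MonObj R] {N : T}

/-- the action of `R ⊗ R` on `R ⊗ N` -/
def M2 (L : ModStr R N) : ModStr (R ⊗ R) (R ⊗ N) := (ModStr.self R).tens L

theorem M2_unit (L : ModStr R N) :
    (R ⊗ R) ◁ ModStr.unitMap R N ≫ (M2 L).act = (α_ R R N).hom ≫ R ◁ L.act := by
  change _ ≫ (tensorμ R R R N ≫ (μ[R] ⊗ₘ L.act)) = _
  unfold ModStr.unitMap
  have h1 : ((R ⊗ R) ◁ (η[R] ▷ N)) ≫ tensorμ R R R N =
      tensorμ R R (𝟙_ T) N ≫ ((R ◁ η[R]) ▷ (R ⊗ N)) := by
    have := tensorμ_natural (𝟙 R) (𝟙 R) η[R] (𝟙 N)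
    simpa using this
  have h2 : ((R ◁ η[R]) ▷ (R ⊗ N)) ≫ (μ[R] ⊗ₘ L.act) = ((ρ_ R).hom ⊗ₘ L.act) := by
    rw [← tensorHom_id, tensorHom_comp_tensorHom, Category.id_comp, MonObj.mul_one]
  rw [MonoidalCategory.whiskerLeft_comp, Category.assoc, reassoc_of% h1, h2]
  have h3 : (R ⊗ R) ◁ (λ_ N).inv ≫ tensorμ R R (𝟙_ T) N ≫ ((ρ_ R).hom ▷ (R ⊗ N)) =
      (α_ R R N).hom := by
    unfold tensorμ
    rw [braiding_tensorUnit_right]
    monoidal
  rw [MonoidalCategory.tensorHom_def, reassoc_of% h3]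

theorem M2_inl (L : ModStr R N) :
    (inlM R R) ▷ (R ⊗ N) ≫ (M2 L).act = (ModStr.free R N).act := by
  change _ ≫ (tensorμ R R R N ≫ (μ[R] ⊗ₘ L.act)) = (α_ R R N).inv ≫ μ[R] ▷ N
  unfold inlM
  rw [comp_whiskerRight, Category.assoc]
  have h1 : ((R ◁ η[R]) ▷ (R ⊗ N)) ≫ tensorμ R R R N =
      tensorμ R (𝟙_ T) R N ≫ ((R ⊗ R) ◁ (η[R] ▷ N)) := by
    have := tensorμ_natural (𝟙 R) η[R] (𝟙 R) (𝟙 N)
    simpa using this
  rw [reassoc_of% h1]
  have h2 : ((R ⊗ R) ◁ (η[R] ▷ N)) ≫ (μ[R] ⊗ₘ L.act) = (μ[R] ⊗ₘ (λ_ N).hom) := by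
    rw [← id_tensorHom, tensorHom_comp_tensorHom, Category.id_comp, L.one_act]
  rw [h2]
  have h3 : ((ρ_ R).inv ▷ (R ⊗ N)) ≫ tensorμ R (𝟙_ T) R N ≫ ((R ⊗ R) ◁ (λ_ N).hom) =
      (α_ R R N).inv := by
    unfold tensorμ
    rw [braiding_tensorUnit_left]
    monoidal
  rw [tensorHom_def', reassoc_of% h3]

theorem inr_act (L : ModStr R N) :
    (inrM R R) ▷ N ≫ (α_ R R N).hom ≫ R ◁ L.act = L.act ≫ ModStr.unitMap R N := by
  unfold inrM ModStr.unitMap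
  rw [comp_whiskerRight, Category.assoc, associator_naturality_left_assoc,
    ← whisker_exchange, leftUnitor_inv_naturality_assoc]
  have h3 : ((λ_ R).inv ▷ N) ≫ (α_ (𝟙_ T) R N).hom = (λ_ (R ⊗ N)).inv := by monoidal
  rw [reassoc_of% h3]

end

variable {T : Type u} [Category.{0} T] [Preadditive T] [HasZeroObject T]
    [HasShift T ℤ] [∀ n : ℤ, (shiftFunctor T n).Additive] [Pretriangulated T] [IsTriangulated T]
    [MonoidalCategory T] [SymmetricCategory T] [TensorTriangulated T] [MonoidalClosed T]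
    [HasCoproducts.{0} T] [HasProducts.{0} T] [StableCat T]

variable {R : T} [MonObj R] {N : T} (L : ModStr R N)

theorem gsmul_unit {k m n : ℤ} (h : k + m = n) (u : (stdEven T).S k ⟶ R ⊗ R)
    (x : (stdEven T).S m ⟶ N) :
    gsmul (M2 L) h u (x ≫ ModStr.unitMap R N) = pr L h u x := by
  unfold gsmul pr
  rw [ext_comp_right, Category.assoc, M2_unit]

theorem gsmul_inl {k m n : ℤ} (h : k + m = n) (y : (stdEven T).S k ⟶ R)
    (w : (stdEven T).S m ⟶ R ⊗ N) :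
    gsmul (M2 L) h (y ≫ inlM R R) w = gsmul (ModStr.free R N) h y w := by
  unfold gsmul
  rw [ext_comp_left, Category.assoc, M2_inl]

theorem pr_inr {k m n : ℤ} (h : k + m = n) (z : (stdEven T).S k ⟶ R)
    (x : (stdEven T).S m ⟶ N) :
    pr L h (z ≫ inrM R R) x = gsmul L h z x ≫ ModStr.unitMap R N := by
  unfold pr gsmul
  rw [ext_comp_left, Category.assoc, inr_act, Category.assoc]

theorem pr_gmul_inr {k l m n q r : ℤ} (h : k + l = q) (h1 : q + m = n) (h2 : l + m = r)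
    (h3 : k + r = n) (u : (stdEven T).S k ⟶ R ⊗ R) (z : (stdEven T).S l ⟶ R)
    (x : (stdEven T).S m ⟶ N) :
    pr L h1 (gmul h u (z ≫ inrM R R)) x = pr L h3 u (gsmul L h2 z x) := by
  rw [← gsmul_unit, gsmul_assoc (M2 L) h h1 h2 h3, gsmul_unit, pr_inr, gsmul_unit]

theorem gsmul_pr {k l m n q r : ℤ} (h : k + l = q) (h1 : q + m = n) (h2 : l + m = r)
    (h3 : k + r = n) (y : (stdEven T).S k ⟶ R) (u : (stdEven T).S l ⟶ R ⊗ R)
    (x : (stdEven T).S m ⟶ N) :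
    gsmul (ModStr.free R N) h3 y (pr L h2 u x) = pr L h1 (gmul h (y ≫ inlM R R) u) x := by
  rw [← gsmul_inl, ← gsmul_unit, ← gsmul_unit, gsmul_assoc (M2 L) h h1 h2 h3]

end Vale.Agent.P221.H658
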