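import Vale.Agent.P221.H658.B3
import Vale.Agent.P221.H174.Zeta
import Vale.Agent.P251.M.CobDec
import Vale.Agent.P251.M.ChainWt

/-!
# P221 (K4): `Laz[b] → k[v, b]`

* `chiT Q : Cob Laz 1 →+* VB p n` : `z ↦ lift Q.law z` on `Laz`, `b_m ↦ b_m`;
* `chiT_one` : the image of `zeta p m` at the vertex `1` is `yF p Q.F m`;
* `exists_decomp` : homogeneous elements of `Cob Laz 1`;
* `exists_laz`, `exists_cob` : homogeneous lifts.
-/

open MvPolynomial

namespace Vale.Agent.P221.H658

open Vale.Agent.P251.F Vale.Agent.P217 Vale.Agent.P221.H174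

variable {p n : ℕ} [hp : Fact p.Prime]

/-- `Laz[b] → k[v, b]` -/
noncomputable def chiT (Q : Form p n) : Cob Laz 1 →+* VB p n :=
  eval₂Hom (Laz.lift Q.G) (fun im => X (Sum.inr im.2))

theorem lift_G (Q : Form p n) (z : Laz) :
    Laz.lift Q.G z = rename (Sum.inl : Fin n → Fin n ⊕ ℕ) (Laz.lift Q.law z) :=
  (Laz.map_lift (rename (Sum.inl : Fin n → Fin n ⊕ ℕ) :
    MvPolynomial (Fin n) (ZMod p) →ₐ[ZMod p] VB p n).toRingHom Q.law z).symm

theorem chiT_C (Q : Form p n) (z : Laz) :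
    chiT Q (C z) = rename (Sum.inl : Fin n → Fin n ⊕ ℕ) (Laz.lift Q.law z) := by
  rw [chiT, eval₂Hom_C, lift_G]

theorem chiT_X (Q : Form p n) (im : Fin 1 × ℕ) : chiT Q (X im) = X (Sum.inr im.2) := by
  rw [chiT, eval₂Hom_X']

theorem chiT_last (Q : Form p n) (a : ℕ →₀ ℕ) :
    chiT Q (monomial (Cob.last 0 a) 1) = monomial (a.mapDomain Sum.inr) 1 := by
  rw [monomial_eq, C_1, one_mul, Cob.last, Finsupp.prod_mapDomain_index_inj Cob.last_inj,
    Finsupp.prod, map_prod, monomial_eq, C_1, one_mul,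
    Finsupp.prod_mapDomain_index_inj Sum.inr_injective, Finsupp.prod]
  refine Finset.prod_congr rfl fun m _ => ?_
  rw [map_pow, chiT_X]

/-- the right unit -/
theorem map_one_C (z : Laz) : Cob.map (fun _ : Fin (0 + 1) => (1 : Fin (1 + 1)))
    (C z : Cob Laz 0) = Laz.lift ((strictMk fun m => (X ((0 : Fin 1), m) : Cob Laz 1)) •
      Laz.univ.map (C : Laz →+* Cob Laz 1)) z := by
  have h1 : (Cob.univ Laz 1).g 1 = strictMk fun m => (X ((0 : Fin 1), m) : Cob Laz 1) :=
    Cob.univ_g_succ (0 : Fin 1)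
  rw [Cob.map, Cob.ev_C, Chain.res_pt, h1, Laz.act_eq, Cob.univ_pt]

theorem chiT_one (Q : Form p n) (m : ℕ) :
    chiT Q (Cob.map (fun _ : Fin (0 + 1) => (1 : Fin (1 + 1))) (C (zeta p m) : Cob Laz 0)) =
      yF p Q.F m := by
  rw [map_one_C, Laz.map_lift, InvSeries.map_smul, Law.map_map, map_strictMk, zeta, map_yF,
    Laz.univ_map_lift]
  have h1 : (chiT Q).comp (C : Laz →+* Cob Laz 1) = Laz.lift Q.G := by
    ext z
    rw [RingHom.comp_apply, chiT, eval₂Hom_C]
  rw [h1, Laz.univ_map_lift, Form.F]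
  congr 3
  funext m
  exact chiT_X Q _

/-- `Finsupp.mapDomain` along `m ↦ (0, m)` as a bijection -/
theorem last_bij : Function.Bijective (Cob.last 0) := by
  have h : Function.Bijective fun m : ℕ => ((Fin.last 0 : Fin (0 + 1)), m) := by
    constructor
    · exact Cob.last_inj
    · rintro ⟨i, m⟩
      exact ⟨m, Prod.ext (Subsingleton.elim (α := Fin 1) _ _) rfl⟩
  constructor
  · exact Finsupp.mapDomain_injective h.1
  · intro c
    refine ⟨c.comapDomain _ h.1.injOn, ?_⟩
    exact Finsupp.mapDomain_comapDomain _ h.1 _ (by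
      intro x _
      exact h.2 x)

/-- homogeneous elements of `Cob Laz 1` -/
theorem exists_decomp {w : ℤ} {z : Cob Laz 1} (hz : Cob.IsWt w z) :
    ∃ (t : Finset (ℕ →₀ ℕ)) (x : (ℕ →₀ ℕ) → Laz),
      (∀ a, Cob.IsWt (w - Cob.degU a) (C (x a) : Cob Laz 0)) ∧
      z = ∑ a ∈ t, monomial (Cob.last 0 a) 1 * C (x a) := by
  classical
  let e := Equiv.ofBijective _ last_bij
  have h1 : ∀ a : ℕ →₀ ℕ, ∃ x : Laz, (C x : Cob Laz 0) =
      Cob.proj (w - Cob.degM (Cob.last 0 a)) (C (coeff (Cob.last 0 a) z)) := fun a => by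
    obtain ⟨x, hx⟩ := Cob.exists_eq_C
      (Cob.proj (w - Cob.degM (Cob.last 0 a)) (C (coeff (Cob.last 0 a) z) : Cob Laz 0))
    exact ⟨x, hx.symm⟩
  choose x hx using h1
  refine ⟨z.support.map e.symm.toEmbedding, x, fun a => ?_, ?_⟩
  · rw [hx, Cob.degM_last]
    exact Cob.isWt_proj _ _
  · conv_lhs => rw [Cob.sum_monomial_of_isWt hz]
    rw [Finset.sum_map]
    refine Finset.sum_congr rfl fun c _ => ?_
    have h2 : Cob.last 0 (e.symm c) = c := e.apply_symm_apply c
    change _ = monomial (Cob.last 0 (e.symm c)) 1 * C (x (e.symm c))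
    rw [h2]
    congr 1
    have h3 := hx (e.symm c)
    rw [h2] at h3
    rw [← h3, Cob.map_C_of_zero _ rfl]

theorem lift_law_toY (Q : Form p n) (z : Laz) :
    Laz.lift Q.law z = aeval Q.pol (toY p z) := by
  rw [lift_eq_comp_toY p Q.law]
  change eval₂Hom (ZMod.castHom dvd_rfl _) (yF p Q.law) (toY p z) = _
  have h1 : yF p Q.law = Q.pol := funext Q.yF_law
  rw [h1]
  have h2 : (eval₂Hom (ZMod.castHom (dvd_refl p) (MvPolynomial (Fin n) (ZMod p))) Q.pol) =
      (aeval Q.pol : MvPolynomial ℕ (ZMod p) →ₐ[ZMod p] _).toRingHom := by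
    apply ringHom_ext
    · intro r
      rw [eval₂Hom_C]
      exact RingHom.congr_fun (Subsingleton.elim (ZMod.castHom (dvd_refl p) _)
        ((aeval Q.pol : MvPolynomial ℕ (ZMod p) →ₐ[ZMod p] _).toRingHom.comp C)) r
    · intro m
      rw [eval₂Hom_X']
      exact (aeval_X _ _).symm
  rw [h2]
  rfl

/-- homogeneous lifts to `Laz` -/
theorem exists_laz (Q : Form p n) {w : ℤ} {s : MvPolynomial (Fin n) (ZMod p)}
    (hs : IsWeightedHomogeneous (wV p n) s w) :
    ∃ z : Laz, Cob.IsWt w (C z : Cob Laz 0) ∧ Laz.lift Q.law z = s := by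
  have h1 : IsWeightedHomogeneous wtm (rename (fun a : Fin n => p ^ ((a : ℕ) + 1) - 2) s) w := by
    intro d hd
    obtain ⟨e, rfl, he⟩ := coeff_rename_ne_zero _ _ _ hd
    rw [← hs he, Finsupp.weight_apply, Finsupp.weight_apply]
    refine (Finsupp.sum_mapDomain_index (h := fun i (c : ℕ) => c • wtm i)
      (fun _ => zero_smul _ _) (fun _ _ _ => add_smul _ _ _)).trans ?_
    refine Finsupp.sum_congr fun a _ => ?_
    have h2 : 2 ≤ p ^ ((a : ℕ) + 1) := two_le_pow hp.out (Nat.succ_ne_zero _)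
    have h3 : wtm (p ^ ((a : ℕ) + 1) - 2) = wV p n a := by
      unfold wtm wV
      rw [Nat.cast_sub h2]
      push_cast
      ring
    rw [h3]
  obtain ⟨z, hz, h2⟩ := exists_toY p h1
  refine ⟨z, hz, ?_⟩
  rw [lift_law_toY, h2, aeval_rename]
  have h3 : (Q.pol ∘ fun a : Fin n => p ^ ((a : ℕ) + 1) - 2) = X := funext fun a => Q.std a
  rw [h3, aeval_X_left]
  rfl

/-- homogeneous lifts to `Laz[b]` -/
theorem exists_cob (Q : Form p n) {w : ℤ} {f : VB p n}
    (hf : IsWeightedHomogeneous (wVB p n) f w) :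
    ∃ z : Cob Laz 1, Cob.IsWt w z ∧ chiT Q z = f := by
  have key : ∀ d ∈ f.support, ∃ z : Cob Laz 1, Cob.IsWt w z ∧ chiT Q z =
      monomial d (coeff d f) := by
    intro d hd
    have hd0 := hf (mem_support_iff.1 hd)
    let d1 : Fin n →₀ ℕ := d.comapDomain Sum.inl Sum.inl_injective.injOn
    let d2 : ℕ →₀ ℕ := d.comapDomain Sum.inr Sum.inr_injective.injOn
    have h1 : d = d1.mapDomain Sum.inl + d2.mapDomain Sum.inr := by
      ext i
      rcases i with a | m
      · rw [Finsupp.add_apply, Finsupp.mapDomain_apply Sum.inl_injective,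
          Finsupp.mapDomain_of_notMem_range _ _ (by simp), add_zero]
        rfl
      · rw [Finsupp.add_apply, Finsupp.mapDomain_apply Sum.inr_injective,
          Finsupp.mapDomain_of_notMem_range _ _ (by simp), zero_add]
        rfl
    have hw : Finsupp.weight (wV p n) d1 + Cob.degU d2 = w := by
      rw [← hd0]
      conv_rhs => rw [h1]
      rw [map_add]
      congr 1
      · rw [Finsupp.weight_apply, Finsupp.weight_apply]
        exact (Finsupp.sum_mapDomain_index (f := (Sum.inl : Fin n → Fin n ⊕ ℕ))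
          (h := fun i (c : ℕ) => c • wVB p n i)
          (fun _ => zero_smul _ _) (fun _ _ _ => add_smul _ _ _)).symm
      · rw [Finsupp.weight_apply, Cob.degU]
        refine Eq.trans ?_ (Finsupp.sum_mapDomain_index (h := fun i (c : ℕ) => c • wVB p n i)
          (fun _ => zero_smul _ _) (fun _ _ _ => add_smul _ _ _)).symm
        refine Finsupp.sum_congr fun m _ => ?_
        rw [nsmul_eq_mul]
        change _ = _ * ((m : ℤ) + 1)
        push_cast
        rfl
    obtain ⟨z, hz, hz'⟩ := exists_laz Q (s := monomial d1 (coeff d f))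
      (w := Finsupp.weight (wV p n) d1) (isWeightedHomogeneous_monomial _ _ _ rfl)
    refine ⟨C z * monomial (Cob.last 0 d2) 1, ?_, ?_⟩
    · rw [← hw, ← Cob.degM_last (s := 0)]
      exact (Vale.Agent.P251.M.ChainWt.isWt_C hz).mul (Cob.isWt_monomial _)
    · rw [map_mul, chiT_C, hz', chiT_last, rename_monomial, monomial_mul, mul_one, ← h1]
  choose! z hz hz' using key
  refine ⟨∑ d ∈ f.support, z d, Cob.isWt_sum _ _ hz, ?_⟩
  rw [map_sum, Finset.sum_congr rfl hz', ← f.as_sum]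

end Vale.Agent.P221.H658
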