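import Vale.Agent.P221.H658.K4a
import Vale.Agent.P221.H658.K4b
import Vale.Agent.P221.H924.Ex

/-!
# P221 (K4): `π_{2*}(MU ⊗ N)` for `π_{2*} N = k[v_1, …, v_n]`

* `EE D : Laz[b] →+* π_{2*}(R ⊗ R)` : left action through `b`, `Laz` through the right unit;
* `FO D L Q` : `π_{2*} N = k[v]` through a form `Q`;
* `FO.A`, `FO.X` : the two maps out of `Laz[b]` of weight `i`;
* `FO.exists_MC` : (K4).
-/

open CategoryTheory MonoidalCategory Limits Pretriangulated MonObj
open Vale.Agent.P251.T Vale.Agent.P251.M Vale.Agent.P251.S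
open Vale.Agent.P251.M.EvenSpheres

universe u

set_option linter.unusedSectionVars false

noncomputable section

namespace Vale.Agent.P221.H658

open Vale.Agent.P251.F Vale.Agent.P251.I Vale.Agent.P251.Z Vale.Agent.P257.H80
  Vale.Agent.P217 Vale.Agent.P221.H174

variable {T : Type u} [Category.{0} T] [Preadditive T] [HasZeroObject T]
    [HasShift T ℤ] [∀ n : ℤ, (shiftFunctor T n).Additive] [Pretriangulated T] [IsTriangulated T]
    [MonoidalCategory T] [SymmetricCategory T] [TensorTriangulated T] [MonoidalClosed T]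
    [HasCoproducts.{0} T] [HasProducts.{0} T] [StableCat T]

variable (D : MUData T)

/-- `Laz[b] →+* π_{2*}(R ⊗ R)` -/
def EE : Cob Laz 1 →+* HRing (stdEven T) (D.R ⊗ D.R) :=
  (HRing.map (E := stdEven T) (pairM (inrM D.R D.R) (inlM D.R D.R))).comp (D.ev 1)

theorem EE_apply (z : Cob Laz 1) :
    EE D z = HRing.map (E := stdEven T) (pairM (inrM D.R D.R) (inlM D.R D.R)) (D.ev 1 z) := rfl

theorem EE_map (α : Fin (0 + 1) → Fin (1 + 1)) (z : Laz) {f : D.R ⟶ D.R ⊗ D.R} [IsMonHom f]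
    (hf : Am.v D.R (α 0) ≫ pairM (inrM D.R D.R) (inlM D.R D.R) = f) :
    EE D (Cob.map α (MvPolynomial.C z : Cob Laz 0)) = HRing.map (E := stdEven T) f (L0 D z) := by
  rw [EE_apply, ← D.ev_map, ← map_L0]
  have h1 : (HRing.map (E := stdEven T) (pairM (inrM D.R D.R) (inlM D.R D.R))).comp
      ((HRing.map (E := stdEven T) (Am.map D.R α)).comp
        (HRing.map (E := stdEven T) (Am.v D.R (0 : Fin 1)))) = HRing.map f := by
    rw [← HRing.map_comp, ← HRing.map_comp]
    apply HRing_map_congr'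
    rw [Am.v_map, hf]
  exact RingHom.congr_fun h1 (L0 D z)

theorem EE_C (z : Laz) : EE D (MvPolynomial.C z) =
    HRing.map (E := stdEven T) (inrM D.R D.R) (L0 D z) := by
  rw [← EE_map D (fun _ => 0) z (v_zero_pairM (inrM D.R D.R) (inlM D.R D.R)),
    Cob.map_C_of_zero _ rfl]

theorem EE_one (z : Laz) : EE D (Cob.map (fun _ : Fin (0 + 1) => (1 : Fin (1 + 1)))
    (MvPolynomial.C z : Cob Laz 0)) = HRing.map (E := stdEven T) (inlM D.R D.R) (L0 D z) :=
  EE_map D (fun _ => 1) z (v_one_pairM (inrM D.R D.R) (inlM D.R D.R))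

theorem EE_wt {w : ℤ} {z : Cob Laz 1} (hz : Cob.IsWt w z) :
    ∃ a : (stdEven T).S w ⟶ D.R ⊗ D.R, EE D z = HRing.of (stdEven T) (D.R ⊗ D.R) w a := by
  obtain ⟨a, ha⟩ := D.ev_wt 1 w z hz
  exact ⟨_, by rw [EE_apply, ha, HRing.map_of]⟩

/-- the class of a homogeneous element -/
def al {w : ℤ} {z : Cob Laz 1} (hz : Cob.IsWt w z) : (stdEven T).S w ⟶ D.R ⊗ D.R :=
  (EE_wt D hz).choose

theorem al_spec {w : ℤ} {z : Cob Laz 1} (hz : Cob.IsWt w z) :
    EE D z = HRing.of (stdEven T) (D.R ⊗ D.R) w (al D hz) := (EE_wt D hz).choose_spec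

theorem al_eq {w : ℤ} {z : Cob Laz 1} (hz : Cob.IsWt w z) {a : (stdEven T).S w ⟶ D.R ⊗ D.R}
    (h : EE D z = HRing.of (stdEven T) (D.R ⊗ D.R) w a) : al D hz = a :=
  of_injective ((al_spec D hz).symm.trans h)

/-- the basis of `R ⊗ R` over the second factor -/
theorem exists_rbas {F : SpaceFunctor T} {e : F.S.obj CCF ≅ (stdEven T).L}
    (h : MUUniv e D) : ∃ b : RBas D.R (ℕ →₀ ℕ), (∀ a, b.k a = Cob.degU a) ∧
      ∀ a, HRing.of (stdEven T) (D.R ⊗ D.R) (b.k a) (b.w a) =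
        EE D (MvPolynomial.monomial (Cob.last 0 a) 1) := by
  obtain ⟨b, hk, hw⟩ := D.exists_basis_of (𝟙 D.R) h
  refine ⟨RBas.ofG b, hk, fun a => ?_⟩
  change HRing.of (stdEven T) (D.R ⊗ D.R) (b.k a) (b.w a ≫ (β_ D.R D.R).hom) = _
  rw [← HRing.map_of, hw, EE_apply]
  have h1 : (HRing.map (E := stdEven T) (β_ D.R D.R).hom).comp
      (HRing.map (E := stdEven T) (D.toKR (𝟙 D.R))) =
      HRing.map (E := stdEven T) (pairM (inrM D.R D.R) (inlM D.R D.R)) := by
    rw [← HRing.map_comp]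
    apply HRing_map_congr'
    apply eq_pairM
    · rw [← Category.assoc, D.v_zero_toKR, Category.id_comp]
      unfold inlM inrM
      simp
    · rw [← Category.assoc, D.v_one_toKR]
      unfold inlM inrM
      simp
  exact RingHom.congr_fun h1 _

end Vale.Agent.P221.H658
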