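import Vale.Agent.P221.H658.K4c

/-!
# P221 (K4): the comparison

* `FO D L Q` : `π_{2*} N = k[v]` through a form `Q`;
* `FO.A`, `chiT` : the two maps out of `Laz[b]` of weight `i`;
* `exists_lin` : the comparison of two quotients;
* `FO.exists_MC` : (K4).
-/

open CategoryTheory MonoidalCategory Limits Pretriangulated MonObj
open Vale.Agent.P251.T Vale.Agent.P251.M Vale.Agent.P251.S
open Vale.Agent.P251.M.EvenSpheres

universe u

set_option linter.unusedSectionVars false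

noncomputable section

namespace Vale.Agent.P221.H658

open Vale.Agent.P251.F Vale.Agent.P251.I Vale.Agent.P251.Z Vale.Agent.P257.H80
  Vale.Agent.P217 Vale.Agent.P221.H174 Vale.Agent.P221.H924 Vale.Agent.P093.N0

section poly

variable {p n : ℕ} [hp : Fact p.Prime]

/-- `k[v, b] → k[v][b]` -/
def tau (p n : ℕ) [Fact p.Prime] : VB p n →+* MvPolynomial ℕ (MvPolynomial (Fin n) (ZMod p)) :=
  MvPolynomial.eval₂Hom (MvPolynomial.C.comp MvPolynomial.C)
    (Sum.elim (fun a => MvPolynomial.C (MvPolynomial.X a)) MvPolynomial.X)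

theorem tau_rename (s : MvPolynomial (Fin n) (ZMod p)) :
    tau p n (MvPolynomial.rename Sum.inl s) = MvPolynomial.C s := by
  have h : (tau p n).comp (MvPolynomial.rename Sum.inl :
      MvPolynomial (Fin n) (ZMod p) →ₐ[ZMod p] VB p n).toRingHom = MvPolynomial.C := by
    apply MvPolynomial.ringHom_ext
    · intro r
      change tau p n (MvPolynomial.rename Sum.inl (MvPolynomial.C r)) = _
      rw [MvPolynomial.rename_C, tau, MvPolynomial.eval₂Hom_C]
      rfl
    · intro a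
      change tau p n (MvPolynomial.rename Sum.inl (MvPolynomial.X a)) = _
      rw [MvPolynomial.rename_X, tau, MvPolynomial.eval₂Hom_X']
      rfl
  exact RingHom.congr_fun h s

theorem tau_monomial (a : ℕ →₀ ℕ) :
    tau p n (MvPolynomial.monomial (a.mapDomain Sum.inr) 1) = MvPolynomial.monomial a 1 := by
  rw [MvPolynomial.monomial_eq, MvPolynomial.C_1, _root_.one_mul,
    Finsupp.prod_mapDomain_index_inj Sum.inr_injective, Finsupp.prod, map_prod,
    MvPolynomial.monomial_eq, MvPolynomial.C_1, _root_.one_mul, Finsupp.prod]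
  refine Finset.prod_congr rfl fun m _ => ?_
  rw [map_pow, tau, MvPolynomial.eval₂Hom_X']
  rfl

/-- the coefficients of an element in the image of `chiT` -/
theorem coeff_tau_chiT (Q : Form p n) (t : Finset (ℕ →₀ ℕ)) (x : (ℕ →₀ ℕ) → Laz) {a : ℕ →₀ ℕ}
    (ha : a ∈ t) : MvPolynomial.coeff a (tau p n (chiT Q (∑ a ∈ t,
      MvPolynomial.monomial (Cob.last 0 a) 1 * MvPolynomial.C (x a)))) =
        Laz.lift Q.law (x a) := by
  classical
  rw [map_sum, map_sum, MvPolynomial.coeff_sum, Finset.sum_eq_single a]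
  · rw [map_mul, chiT_last, chiT_C, map_mul, tau_monomial, tau_rename, mul_comm,
      MvPolynomial.coeff_C_mul, MvPolynomial.coeff_monomial, if_pos rfl, _root_.mul_one]
  · intro b _ hb
    rw [map_mul, chiT_last, chiT_C, map_mul, tau_monomial, tau_rename, mul_comm,
      MvPolynomial.coeff_C_mul, MvPolynomial.coeff_monomial, if_neg hb, mul_zero]
  · intro h
    exact absurd ha h

theorem weight_inr (a : ℕ →₀ ℕ) :
    Finsupp.weight (wVB p n) (a.mapDomain Sum.inr) = Cob.degU a := by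
  rw [Finsupp.weight_apply, Cob.degU]
  refine Eq.trans (Finsupp.sum_mapDomain_index (h := fun i (c : ℕ) => c • wVB p n i)
    (fun _ => zero_smul _ _) (fun _ _ _ => add_smul _ _ _)) ?_
  refine Finsupp.sum_congr fun m _ => ?_
  rw [nsmul_eq_mul]
  change _ * ((m : ℤ) + 1) = _
  push_cast
  rfl

theorem isWH_inl {f : MvPolynomial (Fin n) (ZMod p)} {m : ℤ}
    (h : MvPolynomial.IsWeightedHomogeneous (wV p n) f m) :
    MvPolynomial.IsWeightedHomogeneous (wVB p n)
      (MvPolynomial.rename (Sum.inl : Fin n → Fin n ⊕ ℕ) f : VB p n) m := by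
  intro d hd
  obtain ⟨e, rfl, he⟩ := MvPolynomial.coeff_rename_ne_zero _ _ _ hd
  rw [← h he, Finsupp.weight_apply, Finsupp.weight_apply]
  exact Finsupp.sum_mapDomain_index (h := fun i (c : ℕ) => c • wVB p n i)
    (fun _ => zero_smul _ _) (fun _ _ _ => add_smul _ _ _)

end poly

section lin

variable {k : Type} [CommRing k]

/-- Two quotients of the same graded group with the same kernel. -/
theorem exists_lin {p : ℕ} {W : ℤ → Type} [∀ i, AddCommGroup (W i)] (M N : GM (ZMod p))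
    (A : ∀ i, W i →+ M.A i) (X : ∀ i, W i →+ N.A i) (hA : ∀ i, Function.Surjective (A i))
    (hX : ∀ i, Function.Surjective (X i)) (hk : ∀ i w, A i w = 0 ↔ X i w = 0)
    (hc : ∀ (m : ℕ) {i j : ℤ} (h : i + ((m : ℤ) + 1) = j) (w : W i),
      ∃ w' : W j, A j w' = M.act m h (A i w) ∧ X j w' = N.act m h (X i w)) :
    ∃ F : GM.Lin Set.univ M N, (∀ i, Function.Bijective (F.f i)) ∧
      ∀ i w, F.f i (A i w) = X i w := by
  have hk' : ∀ i w w', A i w = A i w' ↔ X i w = X i w' := fun i w w' => by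
    rw [← sub_eq_zero, ← map_sub, hk, map_sub, sub_eq_zero]
  have h1 : ∀ i (w : W i), X i (hA i (A i w)).choose = X i w := fun i w =>
    (hk' i _ _).1 (hA i (A i w)).choose_spec
  let f₀ : ∀ i, M.A i →+ N.A i := fun i =>
    { toFun := fun x => X i (hA i x).choose
      map_zero' := by
        have h2 := h1 i 0
        rwa [map_zero, map_zero] at h2
      map_add' := fun x y => by
        obtain ⟨w, rfl⟩ := hA i x
        obtain ⟨w', rfl⟩ := hA i y
        rw [h1, h1, ← map_add, h1, map_add] }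
  have h2 : ∀ i w, f₀ i (A i w) = X i w := h1
  refine ⟨⟨fun i => (f₀ i).toZModLinearMap p, fun m _ {i j} h x => ?_⟩, fun i => ⟨?_, ?_⟩, h2⟩
  · change f₀ j (M.act m h x) = N.act m h (f₀ i x)
    obtain ⟨w, rfl⟩ := hA i x
    obtain ⟨w', h3, h4⟩ := hc m h w
    rw [← h3, h2, h2, h4]
  · intro x y (hxy : f₀ i x = f₀ i y)
    obtain ⟨w, rfl⟩ := hA i x
    obtain ⟨w', rfl⟩ := hA i y
    rw [h2, h2] at hxy
    exact (hk' i _ _).2 hxy
  · intro y
    obtain ⟨w, rfl⟩ := hX i y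
    exact ⟨A i w, h2 i w⟩

end lin

section fo

variable {T : Type u} [Category.{0} T] [Preadditive T] [HasZeroObject T]
    [HasShift T ℤ] [∀ n : ℤ, (shiftFunctor T n).Additive] [Pretriangulated T] [IsTriangulated T]
    [MonoidalCategory T] [SymmetricCategory T] [TensorTriangulated T] [MonoidalClosed T]
    [HasCoproducts.{0} T] [HasProducts.{0} T] [StableCat T]

variable {p n : ℕ} [hp : Fact p.Prime]

/-- the homotopy of an `MU`-module `N` is `k[v_1, …, v_n]`, with the action given by a form -/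
structure FO (D : MUData T) {N : T} (L : ModStr D.R N) (Q : Form p n) where
  /-- the action of `π_* MU` -/
  χ : HRing (stdEven T) D.R →+* MvPolynomial (Fin n) (ZMod p)
  law : D.law.map χ = Q.law
  /-- the isomorphism -/
  Θ : ∀ i : ℤ, ((stdEven T).S i ⟶ N) ≃+ PH p n i
  smul : ∀ {w i j : ℤ} (h : w + i = j) (a : (stdEven T).S w ⟶ D.R) (f : (stdEven T).S i ⟶ N),
    (Θ j (gsmul L h a f) : MvPolynomial (Fin n) (ZMod p)) =
      χ (HRing.of (stdEven T) D.R w a) * (Θ i f : MvPolynomial (Fin n) (ZMod p))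

namespace FO

variable {D : MUData T} {N : T} {L : ModStr D.R N} {Q : Form p n} (Φ : FO D L Q)

theorem chi_L0 (z : Laz) : Φ.χ (L0 D z) = Laz.lift Q.law z := by
  rw [L0, Laz.map_lift, Φ.law]

/-- the generator -/
def i0 : (stdEven T).S 0 ⟶ N :=
  (Φ.Θ 0).symm ⟨1, MvPolynomial.isWeightedHomogeneous_one _ _⟩

theorem Th_i0 : (Φ.Θ 0 Φ.i0 : MvPolynomial (Fin n) (ZMod p)) = 1 := by
  rw [i0, AddEquiv.apply_symm_apply]

theorem Th_smul {w : ℤ} {z : Laz} {a : (stdEven T).S w ⟶ D.R}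
    (ha : L0 D z = HRing.of (stdEven T) D.R w a) :
    (Φ.Θ w (gsmul L (add_zero w) a Φ.i0) : MvPolynomial (Fin n) (ZMod p)) =
      Laz.lift Q.law z := by
  rw [Φ.smul, Th_i0, _root_.mul_one, ← ha, chi_L0]

theorem smul_eq_zero_iff {w : ℤ} {z : Laz} {a : (stdEven T).S w ⟶ D.R}
    (ha : L0 D z = HRing.of (stdEven T) D.R w a) :
    gsmul L (add_zero w) a Φ.i0 = 0 ↔ Laz.lift Q.law z = 0 := by
  rw [← Φ.Th_smul ha]
  constructor
  · intro h
    rw [h, map_zero]
    rfl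
  · intro h
    apply (Φ.Θ w).injective
    rw [map_zero]
    exact Subtype.ext h

theorem exists_smul {w : ℤ} (x : (stdEven T).S w ⟶ N) :
    ∃ (z : Laz) (_ : Cob.IsWt w (MvPolynomial.C z : Cob Laz 0)) (a : (stdEven T).S w ⟶ D.R),
      L0 D z = HRing.of (stdEven T) D.R w a ∧ x = gsmul L (add_zero w) a Φ.i0 := by
  obtain ⟨z, hz, h1⟩ := exists_laz Q (Φ.Θ w x).2
  obtain ⟨a, ha⟩ := exists_of_isWt D hz
  refine ⟨z, hz, a, ha, ?_⟩
  apply (Φ.Θ w).injective
  apply Subtype.ext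
  rw [Φ.Th_smul ha, h1]

/-- `z ↦ z · ι` -/
def A (i : ℤ) : Cob.wt Laz 1 i →+ ((stdEven T).S i ⟶ D.R ⊗ N) where
  toFun z := pr L (add_zero i) (al D z.2) Φ.i0
  map_zero' := by
    have h : al D (0 : Cob.wt Laz 1 i).2 = 0 :=
      al_eq D _ ((map_zero _).trans (DirectSum.of ((stdEven T).Gr (D.R ⊗ D.R)) i).map_zero.symm)
    rw [h, pr_zero_left]
  map_add' z z' := by
    have h : al D (z + z').2 = al D z.2 + al D z'.2 :=
      al_eq D _ (by
        change EE D ((z : Cob Laz 1) + (z' : Cob Laz 1)) = _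
        rw [map_add, al_spec D z.2, al_spec D z'.2]
        exact ((DirectSum.of ((stdEven T).Gr (D.R ⊗ D.R)) i).map_add _ _).symm)
    rw [h, pr_add_left]

theorem A_apply {i : ℤ} (z : Cob.wt Laz 1 i) : Φ.A i z = pr L (add_zero i) (al D z.2) Φ.i0 := rfl

/-- a basis element times a class -/
theorem pr_w {b : RBas D.R (ℕ →₀ ℕ)}
    (hw : ∀ a, HRing.of (stdEven T) (D.R ⊗ D.R) (b.k a) (b.w a) =
      EE D (MvPolynomial.monomial (Cob.last 0 a) 1)) {i l : ℤ} (c : ℕ →₀ ℕ) (h : b.k c + l = i)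
    {z : Laz} {a : (stdEven T).S l ⟶ D.R} (ha : L0 D z = HRing.of (stdEven T) D.R l a)
    (hz : Cob.IsWt i (MvPolynomial.monomial (Cob.last 0 c) 1 * MvPolynomial.C z : Cob Laz 1)) :
    pr L h (b.w c) (gsmul L (add_zero l) a Φ.i0) = Φ.A i ⟨_, hz⟩ := by
  rw [A_apply, ← pr_gmul_inr L h (add_zero i) (add_zero l) h]
  congr 1
  symm
  apply al_eq
  rw [map_mul, EE_C, ← hw, ha, HRing.map_of, of_mul_of h]

theorem isWt_term {b : RBas D.R (ℕ →₀ ℕ)} (hk : ∀ a, b.k a = Cob.degU a) {i l : ℤ} (c : ℕ →₀ ℕ)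
    (h : b.k c + l = i) {z : Laz} (hz : Cob.IsWt l (MvPolynomial.C z : Cob Laz 0)) :
    Cob.IsWt i (MvPolynomial.monomial (Cob.last 0 c) 1 * MvPolynomial.C z : Cob Laz 1) := by
  rw [← h, hk, ← Cob.degM_last (s := 0)]
  exact (Cob.isWt_monomial _).mul (ChainWt.isWt_C hz)

theorem A_surjective {b : RBas D.R (ℕ →₀ ℕ)} (hk : ∀ a, b.k a = Cob.degU a)
    (hw : ∀ a, HRing.of (stdEven T) (D.R ⊗ D.R) (b.k a) (b.w a) =
      EE D (MvPolynomial.monomial (Cob.last 0 a) 1)) (i : ℤ) :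
    Function.Surjective (Φ.A i) := by
  intro f
  obtain ⟨t, x, hf⟩ := exists_expansion L b i f
  choose z hz a ha hx using fun j => Φ.exists_smul (x j)
  refine ⟨∑ j ∈ t, ⟨_, isWt_term (D := D) hk j (add_sub_cancel (b.k j) i) (hz j)⟩, ?_⟩
  rw [map_sum, hf]
  refine Finset.sum_congr rfl fun j _ => ?_
  rw [hx, ← Φ.pr_w hw j (add_sub_cancel (b.k j) i) (ha j)]

theorem A_eq_zero_iff {b : RBas D.R (ℕ →₀ ℕ)} (hk : ∀ a, b.k a = Cob.degU a)
    (hw : ∀ a, HRing.of (stdEven T) (D.R ⊗ D.R) (b.k a) (b.w a) =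
      EE D (MvPolynomial.monomial (Cob.last 0 a) 1)) (i : ℤ) (z : Cob.wt Laz 1 i) :
    Φ.A i z = 0 ↔ chiT Q z = 0 := by
  obtain ⟨z, hz⟩ := z
  obtain ⟨t, x, hx, rfl⟩ := exists_decomp hz
  have hx' : ∀ j, Cob.IsWt (i - b.k j) (MvPolynomial.C (x j) : Cob Laz 0) := fun j => by
    rw [hk]; exact hx j
  choose a ha using fun j => exists_of_isWt D (hx' j)
  have e1 : Φ.A i ⟨_, hz⟩ = ∑ j ∈ t, pr L (add_sub_cancel (b.k j) i) (b.w j)
      (gsmul L (add_zero (i - b.k j)) (a j) Φ.i0) := by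
    have e2 : (⟨_, hz⟩ : Cob.wt Laz 1 i) =
        ∑ j ∈ t, ⟨_, isWt_term (D := D) hk j (add_sub_cancel (b.k j) i) (hx' j)⟩ := by
      apply Subtype.ext
      rw [AddSubgroup.val_finsetSum]
    rw [e2, map_sum]
    refine Finset.sum_congr rfl fun j _ => ?_
    rw [← Φ.pr_w hw j (add_sub_cancel (b.k j) i) (ha j)]
  constructor
  · intro h
    have h1 : ∀ j ∈ t, Laz.lift Q.law (x j) = 0 := by
      intro j hj
      rw [← Φ.smul_eq_zero_iff (ha j)]
      have h2 := b.opw_dual_sum L t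
        (fun j => gsmul L (add_zero (i - b.k j)) (a j) Φ.i0) hj
      rw [← h2, ← e1, h, opw_zero, zero_comp]
    change chiT Q (∑ a ∈ t, MvPolynomial.monomial (Cob.last 0 a) 1 * MvPolynomial.C (x a)) = 0
    rw [map_sum]
    refine Finset.sum_eq_zero fun j hj => ?_
    rw [map_mul, chiT_C, h1 j hj, map_zero, mul_zero]
  · intro h
    rw [e1]
    refine Finset.sum_eq_zero fun j hj => ?_
    have h1 : Laz.lift Q.law (x j) = 0 := by
      rw [← coeff_tau_chiT Q t x hj]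
      have h2 : chiT Q (∑ a ∈ t, MvPolynomial.monomial (Cob.last 0 a) 1 *
        MvPolynomial.C (x a)) = 0 := h
      rw [h2, map_zero, MvPolynomial.coeff_zero]
    rw [(Φ.smul_eq_zero_iff (ha j)).2 h1, pr_zero_right]

include Φ in
/-- the image of a homogeneous element is homogeneous -/
theorem chiT_hom {i : ℤ} {z : Cob Laz 1} (hz : Cob.IsWt i z) :
    MvPolynomial.IsWeightedHomogeneous (wVB p n) (chiT Q z) i := by
  obtain ⟨t, x, hx, rfl⟩ := exists_decomp hz
  rw [map_sum]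
  refine MvPolynomial.IsWeightedHomogeneous.sum _ _ _ fun j _ => ?_
  obtain ⟨a, ha⟩ := exists_of_isWt D (hx j)
  have h1 : MvPolynomial.IsWeightedHomogeneous (wV p n) (Laz.lift Q.law (x j))
      (i - Cob.degU j) := by
    rw [← Φ.Th_smul ha]
    exact (Φ.Θ (i - Cob.degU j) _).2
  rw [map_mul, chiT_last, chiT_C]
  have h2 : Cob.degU j + (i - Cob.degU j) = i := by ring
  have h3 := (MvPolynomial.isWeightedHomogeneous_monomial (wVB p n) (j.mapDomain Sum.inr)
    (1 : ZMod p) (weight_inr j)).mul (isWH_inl h1)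
  rwa [h2] at h3

/-- the two maps commute with the action of the right unit -/
theorem A_act {i j : ℤ} {w : ℤ} (h : w + i = j) {y : Laz}
    {a : (stdEven T).S w ⟶ D.R}
    (ha : L0 D y = HRing.of (stdEven T) D.R w a) (z : Cob.wt Laz 1 i)
    (hz : Cob.IsWt j (Cob.map (fun _ : Fin (0 + 1) => (1 : Fin (1 + 1)))
      (MvPolynomial.C y : Cob Laz 0) * (z : Cob Laz 1))) :
    Φ.A j ⟨_, hz⟩ = gsmul (ModStr.free D.R N) h a (Φ.A i z) := by
  rw [A_apply, A_apply, gsmul_pr L h (add_zero j) (add_zero i) h]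
  congr 1
  apply al_eq
  rw [map_mul, EE_one, ha, HRing.map_of, al_spec D z.2, of_mul_of h]

end FO

end fo

section main

variable {T : Type u} [Category.{0} T] [Preadditive T] [HasZeroObject T]
    [HasShift T ℤ] [∀ n : ℤ, (shiftFunctor T n).Additive] [Pretriangulated T] [IsTriangulated T]
    [MonoidalCategory T] [SymmetricCategory T] [TensorTriangulated T] [MonoidalClosed T]
    [HasCoproducts.{0} T] [HasProducts.{0} T] [StableCat T]

variable {p n : ℕ} [hp : Fact p.Prime]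

/-- **(K4)** `π_{2*}(MU ⊗ N) = k[v, b]` -/
theorem FO.exists_MC {D : MUData T} (hA : MUAll D) {C : T} {i : 𝟙_ T ⟶ C}
    {δ : C ⟶ (𝟙_ T)⟦(1 : ℤ)⟧} (hC : Triangle.mk ((p : ℤ) • 𝟙 (𝟙_ T)) i δ ∈ distTriang T)
    {F : SpaceFunctor T} {e : F.S.obj CCF ≅ (stdEven T).L} (hD : MUUniv e D)
    {N : T} {L : ModStr D.R N} {Q : Form p n} (Φ : FO D L Q)
    (hp0 : (p : ℤ) • 𝟙 (D.R ⊗ N) = 0) :
    ∃ G : GM.Lin Set.univ ((Ctx.ofMU D hA hC).LG (ModStr.free D.R N) hp0) (Q.MC (specB3 p n)),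
      (∀ i, Function.Bijective (G.f i)) := by
  obtain ⟨b, hk, hw⟩ := exists_rbas D hD
  let X : ∀ i, Cob.wt Laz 1 i →+ (Q.MC (specB3 p n)).A i := fun i =>
    { toFun := fun z => (⟨chiT Q (z : Cob Laz 1), Φ.chiT_hom z.2⟩ :
        MvPolynomial.weightedHomogeneousSubmodule (ZMod p) (wVB p n) i)
      map_zero' := Subtype.ext (map_zero (chiT Q))
      map_add' := fun z z' => Subtype.ext (map_add (chiT Q) (z : Cob Laz 1) (z' : Cob Laz 1)) }
  have hX : ∀ i, Function.Surjective (X i) := fun i f => by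
    obtain ⟨z, hz, h1⟩ := exists_cob Q f.2
    exact ⟨⟨z, hz⟩, Subtype.ext h1⟩
  have hk0 : ∀ i z, Φ.A i z = 0 ↔ X i z = 0 := fun i z => by
    refine (Φ.A_eq_zero_iff hk hw i z).trans ?_
    constructor
    · intro h
      exact Subtype.ext h
    · intro h
      exact congrArg Subtype.val h
  obtain ⟨G, hG, -⟩ := exists_lin (W := fun i => Cob.wt Laz 1 i)
    ((Ctx.ofMU D hA hC).LG (ModStr.free D.R N) hp0) (Q.MC (specB3 p n))
    (fun i => Φ.A i) X (fun i => Φ.A_surjective hk hw i) hX hk0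
    (fun m {i j} h z => by
      have h2 : ((m : ℤ) + 1) + i = j := by omega
      have h3 : Cob.IsWt j (Cob.map (fun _ : Fin (0 + 1) => (1 : Fin (1 + 1)))
        (MvPolynomial.C (zeta p m) : Cob Laz 0) * (z : Cob Laz 1)) := by
        rw [← h2]
        exact ((isWt_zeta p m).map _).mul z.2
      refine ⟨⟨_, h3⟩, Φ.A_act h2 (L0_zeta D m) z h3, Subtype.ext ?_⟩
      change chiT Q (_ * _) = yF p Q.F m * chiT Q z
      rw [map_mul, chiT_one])
  exact ⟨G, hG⟩

/-- **(K4)**, in both directions -/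
theorem FO.exists_MC' {D : MUData T} (hA : MUAll D) {C : T} {i : 𝟙_ T ⟶ C}
    {δ : C ⟶ (𝟙_ T)⟦(1 : ℤ)⟧} (hC : Triangle.mk ((p : ℤ) • 𝟙 (𝟙_ T)) i δ ∈ distTriang T)
    {F : SpaceFunctor T} {e : F.S.obj CCF ≅ (stdEven T).L} (hD : MUUniv e D)
    {N : T} {L : ModStr D.R N} {Q : Form p n} (Φ : FO D L Q)
    (hp0 : (p : ℤ) • 𝟙 (D.R ⊗ N) = 0) :
    ∃ (G : GM.Lin Set.univ ((Ctx.ofMU D hA hC).LG (ModStr.free D.R N) hp0) (Q.MC (specB3 p n)))
      (H : GM.Lin Set.univ (Q.MC (specB3 p n)) ((Ctx.ofMU D hA hC).LG (ModStr.free D.R N) hp0)),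
      (∀ i x, H.f i (G.f i x) = x) ∧ ∀ i y, G.f i (H.f i y) = y := by
  obtain ⟨G, hG⟩ := Φ.exists_MC hA hC hD hp0
  let e : ∀ i, ((Ctx.ofMU D hA hC).LG (ModStr.free D.R N) hp0).A i ≃ₗ[ZMod p]
      (Q.MC (specB3 p n)).A i := fun i => LinearEquiv.ofBijective (G.f i) (hG i)
  refine ⟨G, ⟨fun i => (e i).symm.toLinearMap, fun m hm {i j} h y => ?_⟩,
    fun i x => (e i).symm_apply_apply x, fun i y => (e i).apply_symm_apply y⟩
  change (e j).symm _ = _ 
  rw [LinearEquiv.symm_apply_eq]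
  change _ = G.f j _
  rw [G.comm m hm]
  congr 1
  exact ((e i).apply_symm_apply y).symm

end main

end Vale.Agent.P221.H658
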