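import Vale.Agent.P221.H658.K1

/-!
# P221 (K5'): sub-objects of `M(X)` given by sub-`π_* R`-modules of `π_{2*}(X ⊗ C)`

* `GSub L` : graded subgroups of `π_{2*} N` closed under `π_* R`;
* `Gam A i` : the elements `w` of `π_{2i}(R ⊗ N)` with all `c_e(w)` in `A`;
* `GQuo A L' a` : `π_* R`-linear maps `A_i ⟶ π_{2(i-a)} N'`;
* `GQuo.gam` : the induced map `Gam A i ⟶ π_{2(i-a)}(R ⊗ N')`.
-/

open CategoryTheory MonoidalCategory Limits Pretriangulated MonObj
open Vale.Agent.P251.T Vale.Agent.P251.M Vale.Agent.P251.S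
open Vale.Agent.P251.M.EvenSpheres

universe u

set_option linter.unusedSectionVars false

noncomputable section

namespace Vale.Agent.P221.H658

variable {T : Type u} [Category.{0} T] [Preadditive T] [HasZeroObject T]
    [HasShift T ℤ] [∀ n : ℤ, (shiftFunctor T n).Additive] [Pretriangulated T] [IsTriangulated T]
    [MonoidalCategory T] [SymmetricCategory T] [TensorTriangulated T] [MonoidalClosed T]
    [HasCoproducts.{0} T] [HasProducts.{0} T] [StableCat T]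

variable {R : T} [MonObj R] {N N' : T} {L : ModStr R N} {L' : ModStr R N'} {J : Type}

theorem gsmul_add_right (L : ModStr R N) {m n l : ℤ} (h : m + n = l) (z : (stdEven T).S m ⟶ R)
    (x x' : (stdEven T).S n ⟶ N) : gsmul L h z (x + x') = gsmul L h z x + gsmul L h z x' := by
  unfold gsmul
  rw [ext_add_right, Preadditive.add_comp]

theorem gsmul_zero_right (L : ModStr R N) {m n l : ℤ} (h : m + n = l)
    (z : (stdEven T).S m ⟶ R) : gsmul L h z (0 : (stdEven T).S n ⟶ N) = 0 := by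
  unfold gsmul
  rw [ext_zero_right, zero_comp]

/-- `c_e (w)` -/
def ce (L : ModStr R N) {j i l : ℤ} (e : (stdEven T).S j ⊗ R ⟶ R) (h : j + i = l)
    (w : (stdEven T).S i ⟶ R ⊗ N) : (stdEven T).S l ⟶ N := opw e h w ≫ L.act

theorem ce_add (L : ModStr R N) {j i l : ℤ} (e : (stdEven T).S j ⊗ R ⟶ R) (h : j + i = l)
    (w w' : (stdEven T).S i ⟶ R ⊗ N) : ce L e h (w + w') = ce L e h w + ce L e h w' := by
  rw [ce, opw_add, Preadditive.add_comp, ce, ce]

theorem ce_zero (L : ModStr R N) {j i l : ℤ} (e : (stdEven T).S j ⊗ R ⟶ R) (h : j + i = l) :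
    ce L e h (0 : (stdEven T).S i ⟶ R ⊗ N) = 0 := by
  rw [ce, opw_zero, zero_comp]

/-- `ce` as a homomorphism -/
def ceHom (L : ModStr R N) {j i l : ℤ} (e : (stdEven T).S j ⊗ R ⟶ R) (h : j + i = l) :
    ((stdEven T).S i ⟶ R ⊗ N) →+ ((stdEven T).S l ⟶ N) where
  toFun := ce L e h
  map_zero' := ce_zero L e h
  map_add' := ce_add L e h

theorem ceHom_apply (L : ModStr R N) {j i l : ℤ} (e : (stdEven T).S j ⊗ R ⟶ R) (h : j + i = l)
    (w : (stdEven T).S i ⟶ R ⊗ N) : ceHom L e h w = ce L e h w := rfl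

theorem ce_sum (L : ModStr R N) {j i l : ℤ} (e : (stdEven T).S j ⊗ R ⟶ R) (h : j + i = l)
    (t : Finset J) (w : J → ((stdEven T).S i ⟶ R ⊗ N)) :
    ce L e h (∑ d ∈ t, w d) = ∑ d ∈ t, ce L e h (w d) := map_sum (ceHom L e h) w t

theorem ce_pr (L : ModStr R N) {j k m n l q : ℤ} (e : (stdEven T).S j ⊗ R ⟶ R) (h : k + m = n)
    (h' : j + n = l) (h1 : j + k = q) (h2 : q + m = l) (u : (stdEven T).S k ⟶ R ⊗ R)
    (x : (stdEven T).S m ⟶ N) : ce L e h' (pr L h u x) = gsmul L h2 (ev e h1 u) x :=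
  opw_pr L e h h' h1 h2 u x

theorem ce_opw (L : ModStr R N) {j j' q i l m : ℤ} (h : j + j' = q) (h1 : j' + i = l)
    (h2 : j + l = m) (h3 : q + i = m) (e : (stdEven T).S j ⊗ R ⟶ R)
    (e' : (stdEven T).S j' ⊗ R ⟶ R) (w : (stdEven T).S i ⟶ R ⊗ N) :
    ce L e h2 (opw e' h1 w) = ce L (compop h e e') h3 w := by
  rw [ce, opw_opw h h1 h2 h3, ce]

theorem eq_of_ce (b : RBas R J) {n : ℤ} {w w' : (stdEven T).S n ⟶ R ⊗ N}
    (h : ∀ (j l : ℤ) (e : (stdEven T).S j ⊗ R ⟶ R) (hl : j + n = l), ce L e hl w = ce L e hl w') :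
    w = w' := by
  rw [← sub_eq_zero]
  refine eq_zero_of_ce L b _ fun j l e hl => ?_
  have h1 : ceHom L e hl (w - w') = 0 := by
    rw [map_sub, ceHom_apply, ceHom_apply, h, sub_self]
  exact h1

variable (L) in
/-- graded subgroups closed under `π_* R` -/
structure GSub where
  /-- the subgroups -/
  A : ∀ i, AddSubgroup ((stdEven T).S i ⟶ N)
  smul : ∀ {m n l : ℤ} (h : m + n = l) (z : (stdEven T).S m ⟶ R) {x : (stdEven T).S n ⟶ N},
    x ∈ A n → gsmul L h z x ∈ A l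

/-- the elements of `π_{2i}(R ⊗ N)` with all `c_e(w)` in `A` -/
def Gam (A : GSub L) (i : ℤ) : AddSubgroup ((stdEven T).S i ⟶ R ⊗ N) where
  carrier := {w | ∀ (j l : ℤ) (e : (stdEven T).S j ⊗ R ⟶ R) (h : j + i = l), ce L e h w ∈ A.A l}
  zero_mem' j l e h := by
    rw [ce_zero]
    exact zero_mem _
  add_mem' {a b} ha hb j l e h := by
    rw [ce_add]
    exact add_mem (ha j l e h) (hb j l e h)
  neg_mem' {a} ha j l e h := by
    have h1 : ceHom L e h (-a) = -ceHom L e h a := map_neg _ _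
    have h2 : ce L e h (-a) = -ce L e h a := h1
    rw [h2]
    exact neg_mem (ha j l e h)

theorem mem_Gam {A : GSub L} {i : ℤ} {w : (stdEven T).S i ⟶ R ⊗ N} : w ∈ Gam A i ↔
    ∀ (j l : ℤ) (e : (stdEven T).S j ⊗ R ⟶ R) (h : j + i = l), ce L e h w ∈ A.A l := Iff.rfl

theorem pr_mem_Gam (A : GSub L) {k m n : ℤ} (h : k + m = n) (u : (stdEven T).S k ⟶ R ⊗ R)
    {x : (stdEven T).S m ⟶ N} (hx : x ∈ A.A m) : pr L h u x ∈ Gam A n := by
  intro j l e h'
  rw [ce_pr L e h h' rfl (by omega)]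
  exact A.smul _ _ hx

theorem opw_mem_Gam (A : GSub L) {j i l : ℤ} (e : (stdEven T).S j ⊗ R ⟶ R) (h : j + i = l)
    {w : (stdEven T).S i ⟶ R ⊗ N} (hw : w ∈ Gam A i) : opw e h w ∈ Gam A l := by
  intro j' l' e' h'
  rw [ce_opw L rfl h h' (by omega)]
  exact hw _ _ _ _

theorem exists_heq {m m' : ℤ} (h : m = m') (x : (stdEven T).S m ⟶ N) :
    ∃ y : (stdEven T).S m' ⟶ N, HEq y x := by
  subst h
  exact ⟨x, HEq.rfl⟩

/-- `π_* R`-linear maps `A_i ⟶ π_{2(i-a)} N'` -/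
structure GQuo (A : GSub L) (L' : ModStr R N') (a : ℤ) where
  /-- the maps -/
  θ (i : ℤ) : A.A i →+ ((stdEven T).S (i - a) ⟶ N')
  smul {m n l : ℤ} (h : m + n = l) (z : (stdEven T).S m ⟶ R) (x : A.A n) :
    θ l ⟨gsmul L h z x, A.smul h z x.2⟩ = gsmul L' (by omega : m + (n - a) = l - a) z (θ n x)

namespace GQuo

variable {A : GSub L} {a : ℤ} (Q : GQuo A L' a)

theorem θ_congr {i i' : ℤ} (h : i = i') {x : (stdEven T).S i ⟶ N} (hx : x ∈ A.A i)
    {x' : (stdEven T).S i' ⟶ N} (hx' : x' ∈ A.A i') (hxx : HEq x x') :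
    HEq (Q.θ i ⟨x, hx⟩) (Q.θ i' ⟨x', hx'⟩) := by
  subst h
  obtain rfl := eq_of_heq hxx
  rfl

/-- the relation `w' = Γθ (w)` -/
def Rel {i : ℤ} (w : Gam A i) (w' : (stdEven T).S (i - a) ⟶ R ⊗ N') : Prop :=
  ∀ (j l : ℤ) (e : (stdEven T).S j ⊗ R ⟶ R) (h : j + i = l),
    ce L' e (by omega : j + (i - a) = l - a) w' = Q.θ l ⟨ce L e h w.1, w.2 j l e h⟩

theorem Rel.add {i : ℤ} {w v : Gam A i} {w' v' : (stdEven T).S (i - a) ⟶ R ⊗ N'}
    (h : Q.Rel w w') (h' : Q.Rel v v') : Q.Rel (w + v) (w' + v') := by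
  intro j l e hl
  rw [ce_add, h j l e hl, h' j l e hl, ← map_add]
  congr 1
  apply Subtype.ext
  exact (ce_add L e hl w.1 v.1).symm

theorem Rel.unique (b : RBas R J) {i : ℤ} {w : Gam A i} {w' v' : (stdEven T).S (i - a) ⟶ R ⊗ N'}
    (h : Q.Rel w w') (h' : Q.Rel w v') : w' = v' := by
  refine eq_of_ce (L := L') b fun j l e hl => ?_
  obtain rfl : l = (j + i) - a := by omega
  exact (h j _ e rfl).trans (h' j _ e rfl).symm

theorem Rel.opw {j i l : ℤ} {e : (stdEven T).S j ⊗ R ⟶ R} {h : j + i = l} {w : Gam A i}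
    {w' : (stdEven T).S (i - a) ⟶ R ⊗ N'} (H : Q.Rel w w') :
    Q.Rel ⟨opw e h w.1, opw_mem_Gam A e h w.2⟩
      (opw e (by omega : j + (i - a) = l - a) w') := by
  intro j' l' e' h'
  rw [ce_opw L' rfl _ _ (by omega : j' + j + (i - a) = l' - a)]
  rw [H (j' + j) l' (compop rfl e' e) (by omega)]
  congr 1
  apply Subtype.ext
  exact (ce_opw L rfl h h' (by omega) e' e w.1).symm

/-- the relation for sums of products -/
theorem rel_sum {i : ℤ} (t : Finset J) (k : J → ℤ) (u : ∀ d, (stdEven T).S (k d) ⟶ R ⊗ R)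
    (x : ∀ d, A.A (i - k d)) (hw : (∑ d ∈ t, pr L (add_sub_cancel (k d) i) (u d) (x d).1) ∈ Gam A i) :
    Q.Rel ⟨∑ d ∈ t, pr L (add_sub_cancel (k d) i) (u d) (x d).1, hw⟩
      (∑ d ∈ t, pr L' (by omega : k d + (i - k d - a) = i - a) (u d) (Q.θ _ (x d))) := by
  intro j l e h
  rw [ce_sum]
  have h1 : (⟨ce L e h (∑ d ∈ t, pr L (add_sub_cancel (k d) i) (u d) (x d).1), hw j l e h⟩ :
      A.A l) = ∑ d ∈ t, ⟨gsmul L (by omega : (j + k d) + (i - k d) = l) (ev e rfl (u d)) (x d).1,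
        A.smul _ _ (x d).2⟩ := by
    apply Subtype.ext
    rw [AddSubgroup.val_finsetSum]
    refine (ce_sum L e h t _).trans ?_
    exact Finset.sum_congr rfl fun d _ => ce_pr L e _ _ _ _ _ _
  rw [h1, map_sum]
  refine Finset.sum_congr rfl fun d _ => ?_
  rw [Q.smul, ce_pr L' e _ _ rfl (by omega : j + k d + (i - k d - a) = l - a)]

theorem exists_expansion_mem (b : RBas R J) {i : ℤ} (w : Gam A i) :
    ∃ (t : Finset J) (x : ∀ d, A.A (i - b.k d)),
      w.1 = ∑ d ∈ t, pr L (add_sub_cancel (b.k d) i) (b.w d) (x d).1 := by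
  obtain ⟨t, ht⟩ := exists_expansion' L b i w.1
  exact ⟨t, fun d => ⟨_, w.2 _ _ (b.dual d (neg_add_cancel (b.k d))) (by omega)⟩, ht⟩

theorem exists_rel (b : RBas R J) {i : ℤ} (w : Gam A i) : ∃ w', Q.Rel w w' := by
  obtain ⟨t, x, hx⟩ := exists_expansion_mem b w
  have hmem : (∑ d ∈ t, pr L (add_sub_cancel (b.k d) i) (b.w d) (x d).1) ∈ Gam A i := by
    rw [← hx]
    exact w.2
  obtain rfl : w = ⟨_, hmem⟩ := Subtype.ext hx
  exact ⟨_, Q.rel_sum t b.k b.w x hmem⟩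

/-- the induced map -/
def gam (b : RBas R J) (i : ℤ) : Gam A i →+ ((stdEven T).S (i - a) ⟶ R ⊗ N') where
  toFun w := (Q.exists_rel b w).choose
  map_zero' := by
    refine Rel.unique Q b (Q.exists_rel b 0).choose_spec fun j l e h => ?_
    rw [ce_zero]
    have h1 : (⟨ce L e h ((0 : Gam A i).1), (0 : Gam A i).2 j l e h⟩ : A.A l) = 0 := by
      apply Subtype.ext
      exact ce_zero L e h
    rw [h1, map_zero]
  map_add' w v := Rel.unique Q b (Q.exists_rel b (w + v)).choose_spec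
    (Rel.add Q (Q.exists_rel b w).choose_spec (Q.exists_rel b v).choose_spec)

theorem rel_gam (b : RBas R J) {i : ℤ} (w : Gam A i) : Q.Rel w (Q.gam b i w) :=
  (Q.exists_rel b w).choose_spec

theorem gam_eq (b : RBas R J) {i : ℤ} {w : Gam A i} {w' : (stdEven T).S (i - a) ⟶ R ⊗ N'}
    (h : Q.Rel w w') : Q.gam b i w = w' := Rel.unique Q b (Q.rel_gam b w) h

/-- `E`-linearity -/
theorem gam_opw (b : RBas R J) {j i l : ℤ} (e : (stdEven T).S j ⊗ R ⟶ R) (h : j + i = l)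
    (w : Gam A i) : Q.gam b l ⟨opw e h w.1, opw_mem_Gam A e h w.2⟩ =
      opw e (by omega : j + (i - a) = l - a) (Q.gam b i w) :=
  Q.gam_eq b (Rel.opw Q (Q.rel_gam b w))

theorem gam_surjective (b : RBas R J) (hθ : ∀ i, Function.Surjective (Q.θ i)) (i : ℤ) :
    Function.Surjective (Q.gam b i) := by
  intro w'
  obtain ⟨t, x', hx'⟩ := exists_expansion L' b (i - a) w'
  have h1 : ∀ d, ∃ x : A.A (i - b.k d), HEq (Q.θ _ x) (x' d) := by
    intro d
    obtain ⟨y, hy⟩ := exists_heq (show i - a - b.k d = i - b.k d - a by omega) (x' d)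
    obtain ⟨x, hx⟩ := hθ (i - b.k d) y
    exact ⟨x, by rw [hx]; exact hy⟩
  choose x hx using h1
  have hmem : (∑ d ∈ t, pr L (add_sub_cancel (b.k d) i) (b.w d) (x d).1) ∈ Gam A i :=
    sum_mem fun d _ => pr_mem_Gam A _ _ (x d).2
  refine ⟨⟨_, hmem⟩, ?_⟩
  rw [Q.gam_eq b (Q.rel_sum t b.k b.w x hmem), hx']
  refine Finset.sum_congr rfl fun d _ => ?_
  have h3 : ∀ {m m' : ℤ} (hm : m = m') (h : b.k d + m = i - a) (h' : b.k d + m' = i - a)
      (y : (stdEven T).S m ⟶ N') (y' : (stdEven T).S m' ⟶ N'), HEq y y' →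
      pr L' h (b.w d) y = pr L' h' (b.w d) y' := by
    intro m m' hm h h' y y' hy
    subst hm
    rw [eq_of_heq hy]
  exact h3 (by omega) _ _ _ _ (hx d)

/-- the kernel -/
theorem gam_eq_zero_iff (b : RBas R J) {i : ℤ} (w : Gam A i) : Q.gam b i w = 0 ↔
    ∀ (j l : ℤ) (e : (stdEven T).S j ⊗ R ⟶ R) (h : j + i = l),
      Q.θ l ⟨ce L e h w.1, w.2 j l e h⟩ = 0 := by
  constructor
  · intro h0 j l e h
    have h1 := Q.rel_gam b w j l e h
    rw [h0, ce_zero] at h1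
    exact h1.symm
  · intro h0
    refine Q.gam_eq b fun j l e h => ?_
    rw [ce_zero, h0]

end GQuo

end Vale.Agent.P221.H658
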