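import Vale.Agent.P221.H658.K5

/-!
# P221 (K5'): filtrations of `π_{2*}(X ⊗ C)` give filtrations of `M(X)`

* `gamOM A : OM (ZMod p) c.O c.dego` for `A : GSub L`, `L` an `R`-module structure on `X ⊗ C`;
* `gamOM_ses` : the short exact sequence of a quotient `A ⟶ π_{2*}(B ⊗ C)`;
* `GFlt` : finite filtrations of `A` with quotients `π_{2*}(B l ⊗ C)`, shifted;
* `flt_of_gflt` : `GFlt` for `π_{2*}(X ⊗ C)` gives `OM.Flt` for `c.OM X`.
-/

open CategoryTheory MonoidalCategory Limits Pretriangulated MonObj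
open Vale.Agent.P251.T Vale.Agent.P251.M Vale.Agent.P251.S
open Vale.Agent.P251.M.EvenSpheres Vale.Agent.P221.H174

universe u

set_option linter.unusedSectionVars false
set_option linter.unusedVariables false

noncomputable section

namespace Vale.Agent.P221.H658

variable {T : Type u} [Category.{0} T] [Preadditive T] [HasZeroObject T]
    [HasShift T ℤ] [∀ n : ℤ, (shiftFunctor T n).Additive] [Pretriangulated T] [IsTriangulated T]
    [MonoidalCategory T] [SymmetricCategory T] [TensorTriangulated T] [MonoidalClosed T]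
    [HasCoproducts.{0} T] [HasProducts.{0} T] [StableCat T] {p : ℕ}

variable {c : Ctx T p} {X B : T} {L : ModStr c.R (X ⊗ c.C)} {L' : ModStr c.R (B ⊗ c.C)} {J : Type}

/-- `act m` is an operator -/
theorem act_eq_opw (X : T) (m : ℕ) {i j : ℤ} (h : i + ((m : ℤ) + 1) = j)
    (w : (stdEven T).S i ⟶ c.R ⊗ (X ⊗ c.C)) :
    ((c.M X).act m h w : (stdEven T).S j ⟶ c.R ⊗ (X ⊗ c.C)) =
      opw (mulop (c.y m)) (by omega : ((m : ℤ) + 1) + i = j) w :=
  (opw_mulop (c.y m) _ w).symm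

/-- the submodules -/
def gamSub (A : GSub L) (i : ℤ) : Submodule (ZMod p) ((c.M X).A i) :=
  AddSubgroup.toZModSubmodule p (Gam A i : AddSubgroup ((c.M X).A i))

theorem mem_gamSub {A : GSub L} {i : ℤ} {w : (c.M X).A i} :
    w ∈ gamSub A i ↔ (w : (stdEven T).S i ⟶ c.R ⊗ (X ⊗ c.C)) ∈ Gam A i := Iff.rfl

theorem act_mem_Gam (A : GSub L) (m : ℕ) {i j : ℤ} (h : i + ((m : ℤ) + 1) = j)
    {w : (stdEven T).S i ⟶ c.R ⊗ (X ⊗ c.C)} (hw : w ∈ Gam A i) :
    ((c.M X).act m h w : (stdEven T).S j ⟶ c.R ⊗ (X ⊗ c.C)) ∈ Gam A j := by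
  have h1 := opw_mem_Gam A (mulop (c.y m)) (by omega : ((m : ℤ) + 1) + i = j) hw
  have h2 := act_eq_opw X m h w
  rw [← h2] at h1
  exact h1

/-- The sub-object of `c.OM X` given by `A`. -/
def gamOM (A : GSub L) : OM (ZMod p) c.O c.dego where
  M :=
    { A := fun i => gamSub A i
      act := fun m {i j} h => ((c.M X).act m h).restrict fun w hw => act_mem_Gam A m h hw
      comm := fun m n _ _ _ _ h1 h2 h3 h4 x => Subtype.ext ((c.M X).comm m n h1 h2 h3 h4 x.1) }
  op o {i j} h :=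
    { toFun := fun w => ⟨(c.OM X).op o h w.1, opw_mem_Gam A o.2 (Ctx.dego_eq h) w.2⟩
      map_zero' := Subtype.ext (map_zero _)
      map_add' := fun w w' => Subtype.ext (map_add _ _ _) }

/-- the inclusion -/
def gamIncl {A A' : GSub L} (h : ∀ i, A'.A i ≤ A.A i) : OM.Hom (gamOM A') (gamOM A) where
  f :=
    { f := fun i => Submodule.inclusion fun _ hw => fun j l e hl => h l (hw j l e hl)
      comm := fun m _ i j e x => rfl }
  op_comm o {i j} e x := rfl

/-- the inclusion in `c.OM X`, if `A` is everything -/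
def gamTop {A : GSub L} (h : ∀ i, A.A i = ⊤) : OM.Iso (gamOM A) (c.OM X) where
  f :=
    { f :=
        { f := fun i => (gamSub A i).subtype
          comm := fun m _ i j e x => rfl }
      op_comm := fun o {i j} e x => rfl }
  bij i := by
    constructor
    · intro x y hxy
      exact Subtype.ext hxy
    · intro w
      refine ⟨⟨w, fun j l e hl => ?_⟩, rfl⟩
      rw [h]
      exact AddSubgroup.mem_top _

/-- the quotient map -/
def gamQ (b : RBas c.R J) {A : GSub L} {a : ℤ} (Q : GQuo A L' a) :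
    OM.Hom (gamOM A) ((c.OM B).shift a) where
  f :=
    { f := fun i => AddMonoidHom.toZModLinearMap p
        (Q.gam b i : (gamSub A i) →+ (c.M B).A (i - a))
      comm := fun m _ {i j} h x => by
        have h1 := Q.gam_opw b (mulop (c.y m)) (by omega : ((m : ℤ) + 1) + i = j) x
        have h2 := act_eq_opw (c := c) B m (by omega : i - a + ((m : ℤ) + 1) = j - a)
          (Q.gam b i x)
        refine Eq.trans ?_ (h1.trans h2.symm)
        change Q.gam b j _ = Q.gam b j _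
        congr 1
        apply Subtype.ext
        exact act_eq_opw X m h x.1 }
  op_comm o {i j} h x := Q.gam_opw b o.2 (Ctx.dego_eq h) x

theorem gamQ_apply (b : RBas c.R J) {A : GSub L} {a : ℤ} (Q : GQuo A L' a) {i : ℤ}
    (x : gamSub A i) : ((gamQ b Q).f.f i x : (stdEven T).S (i - a) ⟶ c.R ⊗ (B ⊗ c.C)) =
      Q.gam b i x := rfl

/-- the short exact sequence -/
def gamSes (b : RBas c.R J) {A A' : GSub L} {a : ℤ} (Q : GQuo A L' a)
    (hs : ∀ i, Function.Surjective (Q.θ i))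
    (hk : ∀ i x, x ∈ A'.A i ↔ ∃ hx : x ∈ A.A i, Q.θ i ⟨x, hx⟩ = 0) :
    OM.Ses (gamOM A') (gamOM A) ((c.OM B).shift a) where
  f := gamIncl fun i x hx => ((hk i x).1 hx).1
  g := gamQ b Q
  inj i x y h := Subtype.ext (congrArg (fun z : gamSub A i => z.1) h)
  surj i := Q.gam_surjective b hs i
  exact i x := by
    constructor
    · intro h
      have h1 := (Q.gam_eq_zero_iff b x).1 h
      exact ⟨⟨x.1, fun j l e hl => (hk l _).2 ⟨x.2 j l e hl, h1 j l e hl⟩⟩, rfl⟩
    · rintro ⟨y, rfl⟩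
      refine (Q.gam_eq_zero_iff b _).2 fun j l e hl => ?_
      exact ((hk l _).1 (y.2 j l e hl)).2

/-- Finite filtrations of `A` with quotients `π_{2*}(B l ⊗ C)`, shifted. -/
inductive GFlt {I : Type} {B : I → T} (LB : ∀ l, ModStr c.R (B l ⊗ c.C)) {X : T}
    (L : ModStr c.R (X ⊗ c.C)) : GSub L → List (I × ℤ) → Prop
  | nil {A : GSub L} : (∀ i, ∀ x ∈ A.A i, x = 0) → GFlt LB L A []
  | cons {A A' : GSub L} {l : I} {a : ℤ} {Ls : List (I × ℤ)} (Q : GQuo A (LB l) a) :
      (∀ i, Function.Surjective (Q.θ i)) →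
      (∀ i x, x ∈ A'.A i ↔ ∃ hx : x ∈ A.A i, Q.θ i ⟨x, hx⟩ = 0) →
      GFlt LB L A' Ls → GFlt LB L A ((l, a) :: Ls)

theorem flt_gamOM {I : Type} {B : I → T} (LB : ∀ l, ModStr c.R (B l ⊗ c.C)) (b : RBas c.R J)
    {A : GSub L} {Ls : List (I × ℤ)} (h : GFlt LB L A Ls) :
    OM.Flt (fun l => c.OM (B l)) (gamOM A) Ls := by
  induction h with
  | nil h0 =>
    refine .nil fun i x => ?_
    apply Subtype.ext
    exact eq_zero_of_ce L b _ fun j l e hl => h0 l _ (x.2 j l e hl)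
  | cons Q hs hk _ ih => exact .cons (gamSes b Q hs hk) ih

/-- **(K5')** -/
theorem flt_of_gflt {I : Type} {B : I → T} (LB : ∀ l, ModStr c.R (B l ⊗ c.C))
    (b : RBas c.R J) {A : GSub L} (hA : ∀ i, A.A i = ⊤) {Ls : List (I × ℤ)}
    (h : GFlt LB L A Ls) : OM.Flt (fun l => c.OM (B l)) (c.OM X) Ls :=
  (flt_gamOM LB b h).ofIso (gamTop hA)

/-- everything -/
def GSub.top (L : ModStr c.R (X ⊗ c.C)) : GSub L where
  A _ := ⊤
  smul _ _ _ _ := AddSubgroup.mem_top _

/-- (K3') for `M(X)` -/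
theorem det (b : RBas c.R J) (L : ModStr c.R (X ⊗ c.C)) {i : ℤ} (y : (c.OM X).M.A i)
    (h : ∀ (o : c.O) (j : ℤ) (h : i + c.dego o = j),
      ((c.OM X).op o h y : (stdEven T).S j ⟶ c.R ⊗ (X ⊗ c.C)) ≫ L.act = 0) : y = 0 :=
  eq_zero_of_ce L b _ fun j l e hl => h ⟨j, e⟩ l (by change i + j = l; omega)

end Vale.Agent.P221.H658
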